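import Vale.Agent.P286EL.Sm

/-!
# The chart data of the elliptic curve are curves with a frame
-/

set_option linter.all false

namespace Vale.Agent.P286EL

open CategoryTheory Polynomial Vale.Agent.P286E Vale.Agent.P286EU Vale.Agent.P286EX
open Vale.Agent.P286ET (IsAway Ix)

noncomputable section

section

variable {I : Type} [SmallCategory I] {D : CD I}

/-- The vector fields of a curve with a frame. -/
def vfOf (X : XD D) : VF D := ⟨X.pd, X.pd_κ⟩

/-- A curve with a frame from its vector fields. -/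
def xdOf (V : VF D) (sm : ∀ i, Algebra.Smooth ℂ (D.C i)) (fr : ∀ i, Nonempty (Fr (V.pd i)))
    (cp : ∀ i, IsCoprime (D.f i) (V.pd i (D.f i)))
    (flat : ∀ {i j : I} (α : i ⟶ j), (D.κ α : D.C i →+* D.C j).Flat) : XD D where
  sm := sm
  zsm i := haveI := sm i; sm_quad (D.f i) (V.pd i) (cp i)
  pd := V.pd
  om i := (fr i).some.1
  d_eq i := (fr i).some.2.1
  pd_om i := (fr i).some.2.2
  pd_κ := V.pd_κ
  cp := cp
  flat := flat

end

/-- Smoothness, coordinates and simple zeros. -/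
structure SX {S : Star} (W : SV S) : Prop where
  sa : Algebra.Smooth ℂ S.Ca
  sb : Algebra.Smooth ℂ S.Cb
  sn : Algebra.Smooth ℂ S.Cn
  ca : ∃ x, IsCo W.pa x
  cb : ∃ x, IsCo W.pb x
  cn : ∃ x, IsCo W.pn x
  pa : IsCoprime S.fa (W.pa S.fa)
  pb : IsCoprime S.fb (W.pb S.fb)
  pn : IsCoprime (S.ka S.fa) (W.pn (S.ka S.fa))

namespace SX

variable {S : Star} {W : SV S} (h : SX W)
include h

theorem sm1 : ∀ i, Algebra.Smooth ℂ (S.C i)
  | .a => h.sa
  | .b => h.sb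
  | .n => h.sn

theorem fr1 : ∀ i, Nonempty (Fr (W.p1 i))
  | .a => h.ca.elim fun _ c => ⟨c.fr⟩
  | .b => h.cb.elim fun _ c => ⟨c.fr⟩
  | .n => h.cn.elim fun _ c => ⟨c.fr⟩

theorem cp1 : ∀ i, IsCoprime (S.f i) (W.p1 i (S.f i))
  | .a => h.pa
  | .b => h.pb
  | .n => h.pn

theorem flat1 {i j : Ix} (α : i ≤ j) : (S.κ i j α : S.C i →+* S.C j).Flat := by
  rcases id α with rfl | rfl <;> cases i
  · exact RingHom.Flat.id S.Ca
  · exact RingHom.Flat.id S.Cb
  · exact RingHom.Flat.id S.Cn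
  · exact away_flat W.away_a
  · exact away_flat W.away_b
  · exact RingHom.Flat.id S.Cn

theorem sm2 : ∀ i, Algebra.Smooth ℂ (S.C2 i)
  | .a => haveI := h.sa; sm_dc S.fa W.pa h.pa
  | .b => h.sb
  | .n => haveI := h.sn; sm_dc (S.ka S.fa) W.pn h.pn

theorem fr2 : ∀ i, Nonempty (Fr (W.p2 i))
  | .a => h.ca.elim fun _ c => c.exists_dc h.pa
  | .b => h.cb.elim fun _ c => ⟨c.fr⟩
  | .n => h.cn.elim fun _ c => c.exists_dc h.pn

theorem cp2 : ∀ i, IsCoprime (S.f2 i) (W.p2 i (S.f2 i))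
  | .a => isCoprime_one_left
  | .b => h.pb
  | .n => isCoprime_one_left

theorem flat2 : ∀ {i j : Ix} (α : P286E.Ar i j), (S.κ2 α : S.C2 i →+* S.C2 j).Flat
  | _, _, .aa ε => away_flat (away_map S.fa away_id ε)
  | _, _, .an ε => away_flat (away_map S.fa W.away_a ε)
  | _, _, .nn ε => away_flat (away_map (S.ka S.fa) away_id ε)
  | _, _, .bb => RingHom.Flat.id S.Cb
  | _, _, .bn => (away_flat W.away_b).comp (of_flat (S.ka S.fa))

/-- The frame on the first datum. -/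
def xd1 : XD S.cd := xdOf W.V1 h.sm1 h.fr1 h.cp1 fun α => h.flat1 (leOfHom α)

/-- The frame on the second datum. -/
def xd2 : XD S.cd2 := xdOf W.V2 h.sm2 h.fr2 h.cp2 fun α => h.flat2 α

end SX

variable {E : Ell} (e : Rt E)

theorem cp_a (E : Ell) : IsCoprime E.f (derivative E.f) := by
  have h1 : derivative E.f = 3 * X ^ 2 + C E.a := by
    simp [Ell.f, derivative_X_pow]
    rw [show (C 2 : ℂ[X]) = 2 from map_ofNat C 2]
    norm_num
  have h2 : C (4 * E.a ^ 3 + 27 * E.b ^ 2)⁻¹ * (4 * C E.a ^ 3 + 27 * C E.b ^ 2) = (1 : ℂ[X]) := by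
    have := congrArg (C : ℂ → ℂ[X]) (inv_mul_cancel₀ E.disc)
    simpa only [map_mul, map_add, map_pow, map_one, map_ofNat] using this
  refine ⟨C (4 * E.a ^ 3 + 27 * E.b ^ 2)⁻¹ * (27 * C E.b - 18 * C E.a * X),
    C (4 * E.a ^ 3 + 27 * E.b ^ 2)⁻¹ * (6 * C E.a * X ^ 2 - 9 * C E.b * X + 4 * C E.a ^ 2), ?_⟩
  rw [h1, Ell.f]
  linear_combination h2

theorem cp_n (E : Ell) : IsCoprime (E.ka E.f) (pnE E (E.ka E.f)) := by
  rw [pnE_ka]
  exact (cp_a E).map (E.ka : ℂ[X] →+* E.Cn)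

theorem cp_b : IsCoprime (algebraMap ℂ[X] (Localization.Away e.g) E.f)
    (pbE e (algebraMap ℂ[X] _ E.f)) := by
  rw [pbE_of]
  exact (cp_a E).map _

theorem co_n (E : Ell) : IsCo (pnE E) (E.ka X) :=
  isCo_pol.loc (away_of_loc (B := E.Cn) E.f) (pnE_ka E)

theorem co_b : IsCo (pbE e) (algebraMap ℂ[X] _ X) :=
  isCo_pol.loc (away_of_loc (B := Localization.Away e.g) e.g) (pbE_of e)

theorem sm_a : Algebra.Smooth ℂ ℂ[X] := ⟨inferInstance, inferInstance⟩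

theorem sm_l (s : ℂ[X]) : Algebra.Smooth ℂ (Localization.Away s) := haveI := sm_a; sm_loc s

theorem sx : SX (esv e) :=
  ⟨sm_a, sm_l e.g, sm_l E.f, ⟨_, isCo_pol⟩, ⟨_, co_b e⟩, ⟨_, co_n E⟩, cp_a E, cp_b e, cp_n E⟩

/-- The frame for `SL_2`. -/
def xd1 : XD (D1 e) := (sx e).xd1

/-- The frame for `SO_3`. -/
def xd2 : XD (D2 e) := (sx e).xd2

theorem vfOf_xd1 : vfOf (xd1 e) = V1 e := rfl

theorem vfOf_xd2 : vfOf (xd2 e) = V2 e := rfl

end

end Vale.Agent.P286EL
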