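import Vale.Agent.P286EL.Evk

/-!
# The rotations on matrices of differential operators with ghosts
-/

set_option linter.all false

namespace Vale.Agent.P286EL

open Module Matrix CategoryTheory Vale.Agent.P286E Vale.Agent.P286ES Vale.Agent.P286EI
  Vale.Agent.P286EX

noncomputable section

theorem vec_of_br {N : Type} [AddCommGroup N] [Module ℂ N] {L : Fin 3 → End ℂ N}
    (h : ∀ a b x, L a (L b x) - L b (L a x) = ∑ c, eps a b c • L c x) : Vec L L := by
  refine ⟨fun _ _ => rfl, fun a x => ?_, fun a x => ?_⟩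
  · rw [← sub_eq_iff_eq_add', h]
    fin_cases a <;> simp [eps, Fin.sum_univ_three]
  · rw [sub_eq_add_neg, ← sub_eq_iff_eq_add', h]
    fin_cases a <;> simp [eps, Fin.sum_univ_three]

theorem ad_br {N : Type} [AddCommGroup N] [Module ℂ N] (a b : Fin 3) (x : L3 N) :
    L3.ad ℂ N a (L3.ad ℂ N b x) - L3.ad ℂ N b (L3.ad ℂ N a x) =
      ∑ c, eps a b c • L3.ad ℂ N c x := by
  fin_cases a <;> fin_cases b <;> refine L3.ext8 ?_ ?_ ?_ ?_ ?_ ?_ ?_ ?_ <;>
    simp [eps, Fin.sum_univ_three, L3.ad_apply, L3.cx_apply]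

section Alg

variable {M : Type} [Ring M] [Algebra ℂ M]

/-- The bracket relations. -/
def Br (κ : ℂ) (μ : Fin 3 → M) : Prop :=
  ∀ a b, μ a * μ b - μ b * μ a = ∑ c, (κ * eps a b c) • μ c

/-- The functoriality as a homomorphism. -/
def mapA (N : Type) [AddCommGroup N] [Module ℂ N] : End ℂ N →ₐ[ℂ] End ℂ (L3 N) where
  toFun f := L3.map f
  map_one' := rfl
  map_mul' _ _ := rfl
  map_zero' := rfl
  map_add' _ _ := rfl
  commutes' _ := rfl

theorem adj_br {κ : ℂ} {μ : Fin 3 → M} (h : Br κ μ) (a b : Fin 3) :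
    adj (μ a) * adj (μ b) - adj (μ b) * adj (μ a) = ∑ c, (κ * eps a b c) • adj (μ c) :=
  LinearMap.ext fun x => by
    have e : (∑ c, (κ * eps a b c) • adj (μ c)) x = adj (∑ c, (κ * eps a b c) • μ c) x := by
      simp only [LinearMap.sum_apply, LinearMap.smul_apply, adj_apply, Finset.sum_mul,
        Finset.mul_sum, smul_sub, Finset.sum_sub_distrib, smul_mul_assoc, mul_smul_comm]
    rw [e, ← h]
    simp only [LinearMap.sub_apply, End.mul_apply, adj_apply]
    noncomm_ring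

/-- The rotations. -/
def LB (κ : ℂ) (μ : Fin 3 → M) (a : Fin 3) : End ℂ (L3 M) :=
  κ⁻¹ • (L3.map (adj (μ a)) + κ • L3.ad ℂ M a)

theorem LB_apply (κ : ℂ) (μ : Fin 3 → M) (a : Fin 3) (x : L3 M) :
    LB κ μ a x = κ⁻¹ • (L3.map (adj (μ a)) x + κ • L3.ad ℂ M a x) := rfl

theorem LB_eq_zero {κ : ℂ} (hκ : κ ≠ 0) {μ : Fin 3 → M} {a : Fin 3} {x : L3 M} :
    LB κ μ a x = 0 ↔ L3.map (adj (μ a)) x + κ • L3.ad ℂ M a x = 0 :=
  smul_eq_zero_iff_right (inv_ne_zero hκ)

theorem LB_vec {κ : ℂ} (hκ : κ ≠ 0) {μ : Fin 3 → M} (h : Br κ μ) : Vec (LB κ μ) (LB κ μ) :=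
  vec_of_br fun a b x => by
    have e1 := LinearMap.congr_fun (congrArg (mapA M) (adj_br h a b)) x
    simp only [map_sub, map_mul, map_sum, map_smul, LinearMap.sub_apply, End.mul_apply,
      LinearMap.sum_apply, LinearMap.smul_apply] at e1
    have e2 := ad_br a b x
    have e3 : ∀ a, LB κ μ a = κ⁻¹ • mapA M (adj (μ a)) + L3.ad ℂ M a := fun a => by
      rw [LB, smul_add, inv_smul_smul₀ hκ]; rfl
    have e4 : ∀ a b y, mapA M (adj (μ a)) (L3.ad ℂ M b y) = L3.ad ℂ M b (mapA M (adj (μ a)) y) :=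
      fun a b y => L3.map_ad _ b y
    simp only [e3, LinearMap.add_apply, LinearMap.smul_apply, map_add, map_smul, e4, smul_add,
      Finset.sum_add_distrib, ← e2]
    have e5 : ∑ c, eps a b c • κ⁻¹ • mapA M (adj (μ c)) x =
        κ⁻¹ • κ⁻¹ • ∑ c, (κ * eps a b c) • mapA M (adj (μ c)) x := by
      simp only [Finset.smul_sum, smul_smul]
      exact Finset.sum_congr rfl fun c _ => congrArg (· • _) (by field_simp)
    rw [e5, ← e1, smul_sub, smul_sub]
    abel

theorem LB_lf (κ : ℂ) {μ : Fin 3 → M} (h : LF fun a => adj (μ a)) : LF (LB κ μ) :=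
  lf_smul (lf_L3 h κ) κ⁻¹

/-- The left multiplication. -/
def fm (F : M) : End ℂ (L3 M) := L3.map (LinearMap.mulLeft ℂ F)

theorem fm_apply (F : M) (x : L3 M) :
    fm F x = ⟨F * x.s, fun a => F * x.v a, fun a => F * x.w a, F * x.t⟩ := rfl

theorem fm_inj {F : M} (hF : ∀ x, F * x = 0 → x = 0) : Function.Injective (fm F) :=
  (injective_iff_map_eq_zero _).2 fun x hx => L3.ext (hF _ (congrArg L3.s hx))
    (funext fun a => hF _ (congrFun (congrArg L3.v hx) a))
    (funext fun a => hF _ (congrFun (congrArg L3.w hx) a)) (hF _ (congrArg L3.t hx))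

theorem fm_LB (κ : ℂ) {μ : Fin 3 → M} {F : M} (h : ∀ a, μ a * F = F * μ a) (a : Fin 3)
    (x : L3 M) : LB κ μ a (fm F x) = fm F (LB κ μ a x) := by
  have e : adj (μ a) * LinearMap.mulLeft ℂ F = LinearMap.mulLeft ℂ F * adj (μ a) :=
    LinearMap.ext fun z => by
      simp only [End.mul_apply, adj_apply, LinearMap.mulLeft_apply, mul_sub, ← mul_assoc, h]
  rw [LB_apply, LB_apply, map_smul, map_add, map_smul, fm, L3.map_ad]
  exact congrArg (fun z => κ⁻¹ • (z + _)) (LinearMap.congr_fun (congrArg (mapA M) e) x)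

/-! ### The rotations in a Weyl algebra -/

/-- The infinitesimal rotations. -/
def mu (κ : ℂ) (y d : Fin 3 → M) (a : Fin 3) : M :=
  κ • (y (a + 2) * d (a + 1) - y (a + 1) * d (a + 2))

theorem mu_eq (κ : ℂ) (y d : Fin 3 → M) (a : Fin 3) :
    mu κ y d a = ∑ b, ∑ e, (κ * eps a b e) • (y e * d b) := by
  fin_cases a <;> simp [mu, eps, Fin.sum_univ_three, smul_sub, sub_eq_add_neg, add_comm]

theorem map_mu {M' : Type} [Ring M'] [Algebra ℂ M'] (f : M →ₐ[ℂ] M') (κ : ℂ) (y d : Fin 3 → M)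
    (a : Fin 3) : f (mu κ y d a) = mu κ (fun b => f (y b)) (fun b => f (d b)) a := by
  simp only [mu, map_smul, map_sub, map_mul]

theorem mu_comm (κ : ℂ) {y d : Fin 3 → M} {z : M} (h1 : ∀ a, y a * z = z * y a)
    (h2 : ∀ a, d a * z = z * d a) (a : Fin 3) : mu κ y d a * z = z * mu κ y d a := by
  simp only [mu, smul_mul_assoc, mul_smul_comm, sub_mul, mul_sub, mul_assoc, h2]
  simp only [← mul_assoc, h1]

/-- The relations of the Weyl algebra. -/
structure Wy (y d : Fin 3 → M) : Prop where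
  yy : ∀ a b, y a * y b = y b * y a
  dd : ∀ a b, d a * d b = d b * d a
  dy : ∀ a b, d a * y b = y b * d a + if a = b then 1 else 0

variable {y d : Fin 3 → M} (h : Wy y d) (κ : ℂ)

include h

theorem Wy.yd_y (p q b : Fin 3) :
    adj (y p * d q) (y b) = if q = b then y p else 0 := by
  rw [adj_apply, mul_assoc, h.dy, mul_add, ← mul_assoc, h.yy p, mul_assoc, add_sub_cancel_left,
    mul_ite, mul_one, mul_zero]

theorem Wy.yd_d (p q b : Fin 3) :
    adj (y p * d q) (d b) = -if b = p then d q else 0 := by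
  rw [adj_apply, ← mul_assoc, h.dy, add_mul, mul_assoc, mul_assoc, h.dd q, sub_add_cancel_left,
    ite_mul, one_mul, zero_mul]

omit h in
theorem adj_mu (a : Fin 3) (z : M) : adj (mu κ y d a) z =
    κ • (adj (y (a + 2) * d (a + 1)) z - adj (y (a + 1) * d (a + 2)) z) := by
  simp only [mu, adj_apply, smul_mul_assoc, mul_smul_comm, sub_mul, mul_sub, smul_sub]
  abel

theorem Wy.mu_y (a b : Fin 3) : adj (mu κ y d a) (y b) = ∑ c, (κ * eps a b c) • y c := by
  rw [adj_mu, h.yd_y, h.yd_y]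
  fin_cases a <;> fin_cases b <;> simp +decide [eps, Fin.sum_univ_three]

theorem Wy.mu_d (a b : Fin 3) : adj (mu κ y d a) (d b) = ∑ c, (κ * eps a b c) • d c := by
  rw [adj_mu, h.yd_d, h.yd_d]
  fin_cases a <;> fin_cases b <;> simp +decide [eps, Fin.sum_univ_three]

omit h in
theorem adj_mul (m x z : M) : adj m (x * z) = adj m x * z + x * adj m z := by
  simp only [adj_apply]
  noncomm_ring

theorem Wy.mu_br : Br κ (mu κ y d) := fun a b => by
  change adj _ (κ • (_ - _)) = _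
  rw [map_smul, map_sub, adj_mul, adj_mul, h.mu_y, h.mu_y, h.mu_d, h.mu_d]
  fin_cases a <;> fin_cases b <;>
    simp [mu, eps, Fin.sum_univ_three, smul_sub, smul_add, smul_smul] <;> module

theorem Wy.mu_q (a : Fin 3) : mu κ y d a * ∑ b, y b * y b = (∑ b, y b * y b) * mu κ y d a := by
  rw [← sub_eq_zero, ← adj_apply, map_sum]
  simp only [adj_mul, h.mu_y]
  fin_cases a <;> simp [eps, Fin.sum_univ_three, h.yy 1 0, h.yy 2 0, h.yy 2 1]

omit h

variable {n : Type} [Fintype n] [DecidableEq n]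

/-- The rotations on matrices. -/
def MU (μ : Fin 3 → M) (r : Fin 3 → Matrix n n ℂ) (a : Fin 3) : Matrix n n M :=
  Matrix.scalar n (μ a) + (-(r a)ᵀ).map (algebraMap ℂ M)

theorem sc_cm (z : M) (S : Matrix n n ℂ) :
    Matrix.scalar n z * S.map (algebraMap ℂ M) = S.map (algebraMap ℂ M) * Matrix.scalar n z :=
  Matrix.ext fun k l => by
    simp only [Matrix.scalar_apply, Matrix.diagonal_mul, Matrix.mul_diagonal, Matrix.map_apply,
      Algebra.commutes]

theorem MU_br {κ : ℂ} {μ : Fin 3 → M} (h : Br κ μ) {r : Fin 3 → Matrix n n ℂ} (hr : Br κ r) :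
    Br κ (MU μ r) := fun a b => by
  have e1 := congrArg (Matrix.scalarAlgHom n ℂ) (h a b)
  have e2 : Br κ fun a => -(r a)ᵀ := fun a b => by
    have := congrArg Matrix.transpose (hr a b)
    simp only [transpose_sub, transpose_mul, transpose_sum, transpose_smul] at this
    simp only [neg_mul_neg, smul_neg, Finset.sum_neg_distrib, ← this, neg_sub]
  have e3 := congrArg (Algebra.ofId ℂ M).mapMatrix (e2 a b)
  simp only [map_sub, map_mul, map_sum, map_smul] at e1 e3
  simp only [MU, add_mul, mul_add, smul_add, Finset.sum_add_distrib, sc_cm]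
  refine Eq.trans ?_ (congrArg₂ (· + ·) e1 e3)
  change _ = Matrix.scalar n _ * Matrix.scalar n _ - Matrix.scalar n _ * Matrix.scalar n _ +
    ((-(r a)ᵀ).map (algebraMap ℂ M) * (-(r b)ᵀ).map (algebraMap ℂ M) -
      (-(r b)ᵀ).map (algebraMap ℂ M) * (-(r a)ᵀ).map (algebraMap ℂ M))
  abel

theorem MU_sc {μ : Fin 3 → M} {F : M} (h : ∀ a, μ a * F = F * μ a) (r : Fin 3 → Matrix n n ℂ)
    (a : Fin 3) : MU μ r a * Matrix.scalar n F = Matrix.scalar n F * MU μ r a := by
  rw [MU, add_mul, mul_add, sc_cm, ← map_mul, ← map_mul, h]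

theorem sc_reg {F : M} (hF : ∀ x, F * x = 0 → x = 0) (x : Matrix n n M)
    (hx : Matrix.scalar n F * x = 0) : x = 0 :=
  Matrix.ext fun k l => hF _ ((Matrix.diagonal_mul _ x k l).symm.trans (congrFun (congrFun hx k) l))

theorem map_MU {M' : Type} [Ring M'] [Algebra ℂ M'] (f : M →ₐ[ℂ] M') (μ : Fin 3 → M)
    (r : Fin 3 → Matrix n n ℂ) (a : Fin 3) : (MU μ r a).map f = MU (fun b => f (μ b)) r a :=
  Matrix.ext fun k l => by
    simp only [MU, Matrix.map_apply, Matrix.add_apply, map_add, AlgHom.commutes,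
      Matrix.scalar_apply, Matrix.diagonal_apply, apply_ite f, map_zero]

end Alg

section DW

variable {B : Type} [CommRing B] [Algebra ℂ B] (pd : Derivation ℂ B B) (κ : ℂ)

theorem wy_dw : Wy (DW.y (ι := Fin 3) pd) (DW.d pd) := ⟨DW.y_y, DW.d_d, DW.d_y⟩

/-- The rotations as differential operators. -/
abbrev muW : Fin 3 → DW (Fin 3) pd := mu κ (DW.y pd) (DW.d pd)

theorem muW_cf (a : Fin 3) (z : B) : muW pd κ a * DW.cf _ pd z = DW.cf _ pd z * muW pd κ a :=
  mu_comm κ (fun b => DW.y_cf b z) (fun b => DW.d_cf b z) a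

theorem muW_du (a : Fin 3) : muW pd κ a * DW.du _ pd = DW.du _ pd * muW pd κ a :=
  mu_comm κ (fun b => (DW.du_y b).symm) (fun b => (DW.du_d b).symm) a

theorem muW_lf : LF fun a => adj (muW pd κ a) :=
  lf_dw _ (muW_cf pd κ) (muW_du pd κ)
    (fun a b => ((wy_dw pd).mu_y κ a b).symm ▸
      sum_mem fun c _ => Submodule.smul_mem _ _ (Submodule.subset_span ⟨c, rfl⟩))
    fun a b => ((wy_dw pd).mu_d κ a b).symm ▸
      sum_mem fun c _ => Submodule.smul_mem _ _ (Submodule.subset_span ⟨c, rfl⟩)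

variable {n : Type} [Fintype n] [DecidableEq n] (r : Fin 3 → Matrix n n ℂ)

/-- The rotations on matrices of differential operators with ghosts. -/
abbrev LW : Fin 3 → End ℂ (L3 (Matrix n n (DW (Fin 3) pd))) := LB κ (MU (muW pd κ) r)

theorem LW_vec (hκ : κ ≠ 0) (hr : Br κ r) : Vec (LW pd κ r) (LW pd κ r) :=
  LB_vec hκ (MU_br ((wy_dw pd).mu_br κ) hr)

theorem LW_lf : LF (LW pd κ r) := LB_lf κ (lf_mat _ (muW_lf pd κ) fun a => -(r a)ᵀ)

end DW

variable {I : Type} [SmallCategory I] {D : CD I} {i : I} (pd : Derivation ℂ (D.C i) (D.C i))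
  (n : Type) [Fintype n] [DecidableEq n]

theorem muW_FF (κ : ℂ) (a : Fin 3) :
    muW pd κ a * DO.of _ (FF D i) = DO.of _ (FF D i) * muW pd κ a := by
  rw [of_FF, mul_sub, sub_mul, muW_cf, (wy_dw pd).mu_q]

/-- The left multiplication with the equation. -/
abbrev fW : End ℂ (L3 (Matrix n n (DW (Fin 3) pd))) := fm (Matrix.scalar n (DO.of _ (FF D i)))

theorem fW_inj : Function.Injective (fW pd n) := fm_inj (sc_reg (FF_dw D i pd))

theorem fW_L (κ : ℂ) (r : Fin 3 → Matrix n n ℂ) (a : Fin 3) (x : L3 (Matrix n n (DW (Fin 3) pd))) :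
    LW pd κ r a (fW pd n x) = fW pd n (LW pd κ r a x) := fm_LB κ (MU_sc (muW_FF pd κ) r) a x

end

end Vale.Agent.P286EL
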