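import Vale.Agent.P286EL.Sl0
import Vale.Agent.P286E5.SL

/-!
# The transfer modules as a family of `D`-modules with an infinitesimal action
-/

set_option linter.all false

namespace Vale.Agent.P286EX.Tr

open CategoryTheory Matrix MvPolynomial Vale.Agent.P286 Vale.Agent.P286.St Vale.Agent.P286E
  Vale.Agent.P286EI Vale.Agent.P286EL Vale.Agent.P286EU

noncomputable section

theorem mu_Eu {B : Type} [CommRing B] [Algebra ℂ B] (κ : ℂ) (pd : Derivation ℂ B B) (a : Fin 3) :
    mu κ pd a * DW.Eu _ pd = DW.Eu _ pd * mu κ pd a := by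
  have e : ∀ p q : Fin 3, DW.Eu _ pd * (DW.y pd p * DW.d pd q) =
      DW.y pd p * DW.d pd q * DW.Eu _ pd := fun p q => by
    rw [← mul_assoc, DW.Eu_y, add_mul, mul_assoc, DW.Eu_d, mul_sub, sub_add_cancel, mul_assoc]
  simp only [mu, Finset.sum_mul, Finset.mul_sum, smul_mul_assoc, mul_smul_comm, e]

variable {I : Type} [SmallCategory I] {D : CD I} {G : Grp} {s : ℂ} (xd : XD D) (K : GK G)
  {X Y : QO D}

/-- The inverse of the cocycle. -/
abbrev cI {i j : I} (α : i ⟶ j) : D.C j := ((cu α)⁻¹ : (D.C j)ˣ)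

/-- The image of the vector field of the curve. -/
def qn (s : ℂ) {i j : I} (α : i ⟶ j) : DV xd j :=
  DW.cf _ (xd.pd j) (cI α) * DW.tu _ _ (xd.vfd.lc α) (s • xd.vfd.lr α)

/-- The rescaled derivatives. -/
def qd {i j : I} (α : i ⟶ j) (a : Fin 3) : DV xd j := DW.cf _ (xd.pd j) (cI α) * DW.d _ a

theorem adj_cf (κ : ℂ) {j : I} (e : Fin 3) (z : D.C j) :
    adj (mu κ (xd.pd j) e) (DW.cf _ _ z) = 0 :=
  sub_eq_zero.2 (mu_muW κ (xd.pd j) ▸ muW_cf _ κ e z)

theorem adj_qn (κ : ℂ) {i j : I} (α : i ⟶ j) (e : Fin 3) :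
    adj (mu κ (xd.pd j) e) (qn xd s α) = 0 := by
  have e1 : adj (mu κ (xd.pd j) e) (DW.du _ _) = 0 :=
    sub_eq_zero.2 (mu_muW κ (xd.pd j) ▸ muW_du _ κ e)
  have e2 : adj (mu κ (xd.pd j) e) (DW.Eu _ _) = 0 := sub_eq_zero.2 (mu_Eu κ _ e)
  simp only [qn, DW.tu, adj_mul, map_add, map_sub, adj_cf, e1, e2, zero_mul, mul_zero, add_zero,
    sub_zero]

theorem adj_qd (κ : ℂ) {i j : I} (α : i ⟶ j) (e a : Fin 3) :
    adj (mu κ (xd.pd j) e) (qd xd α a) = ∑ f, (κ * eps e a f) • qd xd α f := by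
  rw [qd, adj_mul, adj_cf, zero_mul, zero_add, mu_muW, (wy_dw _).mu_d, Finset.mul_sum]
  simp only [qd, mul_smul_comm]

theorem ll_ra0 (X : QO D) (e : Fin 3) (q : DV xd X.i) (y : TX G s X) :
    ll xd K s X e (ra0 xd G s X q y) =
      ra0 xd G s X q (ll xd K s X e y) + ra0 xd G s X (adj (mu K.κ (xd.pd X.i) e) q) y := by
  rw [adj_apply, map_sub, LinearMap.sub_apply, ra0_mul, ra0_mul, ll_apply, ll_apply, map_neg]
  abel

theorem ra0_D (X : QO D) (k : Option (Fin 3)) (x : TX G s X) :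
    ra0 xd G s X (DO.D _ k) x = x * MvPolynomial.X k := ra_D _ _ k x

theorem t_du (u : Ar G s X Y) (x : TX G s X) :
    t xd K u (ra0 xd G s X (DW.du _ _) x) = ra0 xd G s Y (qn xd s (QM.α u)) (t xd K u x) := by
  rw [t_ra0, ← raX_inc]
  refine congrArg (fun q => raX xd G s Y q _) ?_
  refine (congrArg (DW.map (tr xd K u)) (inc_du xd X)).trans ((DW.map_du _).trans ?_)
  simp only [qn, DW.tu, map_mul, map_add, map_sub, inc_cf, inc_du, inc_Eu, tr_ci, tr_lg, tr_l]

theorem t_d (u : Ar G s X Y) (b : Fin 3) (x : TX G s X) : t xd K u (ra0 xd G s X (DW.d _ b) x) =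
    ∑ a, adm G (qh u) a b • ra0 xd G s Y (qd xd (QM.α u) a) (t xd K u x) := by
  have e : gu xd K u (DW.d _ b) =
      ∑ a, DW.cf _ _ (bL G s Y (adm G (qh u) a b)) * inc xd G s Y (qd xd (QM.α u) a) := by
    refine (congrArg (DW.map (tr xd K u)) (inc_d xd X b)).trans ((DW.map_d _ b).trans ?_)
    rw [DW.lc, Finset.mul_sum]
    refine Finset.sum_congr rfl fun a _ => ?_
    rw [qd, map_mul, inc_cf, inc_d, ← mul_assoc, DW.cf_cf, mul_assoc]
    rfl
  rw [t_ra0, e, map_sum, LinearMap.sum_apply]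
  exact Finset.sum_congr rfl fun a _ => by rw [raX_mul, raX_L, map_smul, raX_inc]

theorem ev0_cf (X : QO D) (z : D.C X.i) (q : DV xd X.i) :
    ev0 xd G s X (DW.cf _ _ z * q) = qx G s X z • ev0 xd G s X q :=
  (ev_of_mul _ _ (C z) q).trans (congrArg (· • _) (p0_C X z))

theorem ev0_y (X : QO D) (a : Fin 3) (q : DV xd X.i) :
    ev0 xd G s X (DW.y _ a * q) = qY G s X a • ev0 xd G s X q :=
  (ev_of_mul _ _ (MvPolynomial.X a) q).trans (congrArg (· • _) (p0_X X a))

theorem ev0_D (X : QO D) (k : Option (Fin 3)) : ev0 xd G s X (DO.D _ k) = MvPolynomial.X k := by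
  rw [← ra0_unit, ra0_D, one_mul]

theorem ev0_d (X : QO D) (a : Fin 3) : ev0 xd G s X (DW.d _ a) = MvPolynomial.X (some a) :=
  ev0_D xd X _

theorem ev0_du (X : QO D) : ev0 xd G s X (DW.du _ _) = MvPolynomial.X none := ev0_D xd X _

theorem ev0_cf' (X : QO D) (z : D.C X.i) : ev0 xd G s X (DW.cf _ _ z) = qx G s X z • 1 :=
  (congrArg _ (mul_one _).symm).trans ((ev0_cf xd X z 1).trans (congrArg _ (ev_one _ _)))

variable (u : Ar G s X Y) (w : Derivation ℂ (RQ G s Y) (RQ G s Y)) {n : ℕ} (c : Fin n → RQ G s Y)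
  (v : Fin n → Derivation ℂ (RQ G s X) (RQ G s X)) (H : ∀ a, w (qf u a) = ∑ k, c k * qf u (v k a))

/-- The components of the vector field along the group. -/
def tw (e : Fin 3) : RQ G s Y := w.liftKaehlerDifferential (thm G (qh u) e)

theorem der_ad (f b : Fin 3) : w (adm G (qh u) f b) =
    ∑ e, tw u w e * ∑ a, (K.κ * eps e a f) • adm G (qh u) a b := K.der_adm (qpt u) w f b

theorem ci_c : qx G s Y (cI (QM.α u)) * qx G s Y (D.c (QM.α u)) = 1 :=
  (map_mul _ _ _).symm.trans ((congrArg _ (cu (QM.α u)).inv_mul).trans (map_one _))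

theorem der_Y (a : Fin 3) : ∑ b, w (qf u (qY G s X b)) *
    (adm G (qh u) a b * qx G s Y (cI (QM.α u))) = w (qY G s Y a) +
      c0 xd G s Y w * qx G s Y (xd.vfd.lc (QM.α u)) * qY G s Y a +
      ∑ e, tw u w e * ∑ f, (K.κ * eps e a f) • qY G s Y f := by
  have h : G.ht (qx G s Y (D.c (QM.α u)) • qY G s Y) * qh u = qh u * G.ht (qf u ∘ qY G s X) := by
    rw [ht_smul, Matrix.smul_mul]; exact (QM.hY u).symm
  have e1 : ∀ a, qx G s Y (D.c (QM.α u)) * qY G s Y a =
      ∑ b, adm G (qh u) a b * qf u (qY G s X b) := congrFun (K.eq_adm (qpt u) h)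
  have e2 := congrArg w (e1 a)
  have e3 : w (qx G s Y (D.c (QM.α u))) =
      c0 xd G s Y w * (qx G s Y (D.c (QM.α u)) * qx G s Y (xd.vfd.lc (QM.α u))) :=
    (c0_eq xd Y w _).trans (congrArg _ ((congrArg _ (DW.mul_lg (cu (QM.α u))).symm).trans
      (map_mul _ _ _)))
  have e4 := ci_c u
  have f0 := e1 0
  have f1 := e1 1
  have f2 := e1 2
  simp only [map_sum, Derivation.leibniz, smul_eq_mul, e3, der_ad K, Algebra.smul_def, map_mul,
    Fin.sum_univ_three, map_add] at e2 f0 f1 f2 ⊢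
  generalize qx G s Y (cI (QM.α u)) = ci at e4 ⊢
  generalize algebraMap ℂ (RQ G s Y) K.κ = k at e2 ⊢
  fin_cases a <;> simp [eps] at e2 ⊢
  · linear_combination -ci * e2 - (w (qY G s Y 0) + c0 xd G s Y w * qx G s Y (xd.vfd.lc (QM.α u)) *
      qY G s Y 0 + k * (tw u w 1 * qY G s Y 2 * (-1) + tw u w 2 * qY G s Y 1)) * (-e4) +
      ci * k * tw u w 1 * f2 - ci * k * tw u w 2 * f1
  · linear_combination -ci * e2 - (w (qY G s Y 1) + c0 xd G s Y w * qx G s Y (xd.vfd.lc (QM.α u)) *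
      qY G s Y 1 + k * (tw u w 2 * qY G s Y 0 * (-1) + tw u w 0 * qY G s Y 2)) * (-e4) +
      ci * k * tw u w 2 * f0 - ci * k * tw u w 0 * f2
  · linear_combination -ci * e2 - (w (qY G s Y 2) + c0 xd G s Y w * qx G s Y (xd.vfd.lc (QM.α u)) *
      qY G s Y 2 + k * (tw u w 0 * qY G s Y 1 * (-1) + tw u w 1 * qY G s Y 0)) * (-e4) +
      ci * k * tw u w 0 * f1 - ci * k * tw u w 1 * f0

include H in
theorem c0_tr : ∑ k, c k * qf u (c0 xd G s X (v k)) = c0 xd G s Y w * qx G s Y (D.c (QM.α u)) :=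
  pd_cancel xd ((qx G s Y).comp (D.κ (QM.α u))) fun z => by
    have h := H (qx G s X z)
    rw [qf_x, c0_eq xd Y, xd.pd_κ, map_mul, ← mul_assoc] at h
    rw [AlgHom.comp_apply, h, Finset.sum_mul]
    exact Finset.sum_congr rfl fun k _ => by rw [c0_eq xd X, map_mul, qf_x, mul_assoc]

/-- The horizontality of the transition map. -/
def TA (x : TX G s X) : Prop := act xd G s Y w (t xd K u x) =
  ∑ k, c k • t xd K u (act xd G s X (v k) x) -
    (c0 xd G s Y w * qx G s Y (s • xd.vfd.lr (QM.α u))) • t xd K u x +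
    ∑ e, tw u w e • ll xd K s Y e (t xd K u x)

theorem act_one (X : QO D) (v : Derivation ℂ (RQ G s X) (RQ G s X)) : act xd G s X v 1 =
    c0 xd G s X v • MvPolynomial.X none + ∑ a, v (qY G s X a) • MvPolynomial.X (some a) :=
  (nb_one _ _).trans (Fintype.sum_option _)

include H in
theorem ta_one : TA xd K u w c v 1 := by
  have e1 : t xd K u (MvPolynomial.X none) = ev0 xd G s Y (qn xd s (QM.α u)) := by
    rw [← ev0_du xd X, ← ra0_unit, t_du, t_unit, ra0_unit]
  have e2 : ∀ b, t xd K u (MvPolynomial.X (some b)) = ∑ a, (adm G (qh u) a b *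
      qx G s Y (cI (QM.α u))) • MvPolynomial.X (some a) := fun b => by
    rw [← ev0_d xd X, ← ra0_unit, t_d, t_unit]
    simp only [ra0_unit, qd, ev0_cf, ev0_d, smul_smul]
  have e3 : ∑ k, c k • t xd K u (act xd G s X (v k) 1) =
      (c0 xd G s Y w * qx G s Y (D.c (QM.α u))) • t xd K u (MvPolynomial.X none) +
        ∑ b, w (qf u (qY G s X b)) • t xd K u (MvPolynomial.X (some b)) := by
    simp only [act_one, map_add, map_sum, t_smul, smul_add, Finset.smul_sum, smul_smul,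
      Finset.sum_add_distrib, ← c0_tr xd u w c v H, H, Finset.sum_smul]
    rw [Finset.sum_comm]
  have e4 : ∑ b, w (qf u (qY G s X b)) • t xd K u (MvPolynomial.X (some b)) =
      ∑ a, (w (qY G s Y a) + c0 xd G s Y w * qx G s Y (xd.vfd.lc (QM.α u)) * qY G s Y a +
        ∑ e, tw u w e * ∑ f, (K.κ * eps e a f) • qY G s Y f) • MvPolynomial.X (some a) := by
    simp only [e2, Finset.smul_sum, smul_smul, ← der_Y xd K u w, Finset.sum_smul]
    exact Finset.sum_comm
  have e5 : ∑ e, tw u w e • ll xd K s Y e 1 = -∑ a, (∑ e, tw u w e *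
      ∑ f, (K.κ * eps e a f) • qY G s Y f) • (MvPolynomial.X (some a) : TX G s Y) := by
    simp only [ll_apply, ra0_unit]
    simp only [mu, map_sum, map_smul, ev0_y, ev0_d, smul_neg, Finset.sum_neg_distrib,
      Finset.sum_smul, mul_smul, smul_assoc, Finset.smul_sum]
    exact congrArg _ Finset.sum_comm
  rw [TA, t_unit, e3, e4, e5, e1, act_one, qn, ev0_cf, smul_smul, mul_assoc,
    mul_comm (qx G s Y (D.c _)), ci_c, mul_one]
  simp only [DW.tu, DW.Eu, map_add, map_sub, ev0_cf, ev0_cf', ev0_du, map_sum, ev0_y, ev0_d,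
    smul_add, smul_sub, add_smul, Finset.sum_add_distrib, Finset.smul_sum, mul_smul]
  abel

theorem ta_du {x : TX G s X} (h : TA xd K u w c v x) :
    TA xd K u w c v (ra0 xd G s X (DW.du _ _) x) := by
  rw [TA] at h ⊢
  simp only [t_du, act_ra0, h, ll_ra0, adj_qn, map_zero, LinearMap.zero_apply, add_zero, map_add,
    map_sub, map_sum, map_smul]

theorem ta_d {x : TX G s X} (h : TA xd K u w c v x) (b : Fin 3) :
    TA xd K u w c v (ra0 xd G s X (DW.d _ b) x) := by
  have e : ∑ a, w (adm G (qh u) a b) • ra0 xd G s Y (qd xd (QM.α u) a) (t xd K u x) =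
      ∑ e, tw u w e • ∑ a, adm G (qh u) a b •
        ∑ f, (K.κ * eps e a f) • ra0 xd G s Y (qd xd (QM.α u) f) (t xd K u x) := by
    simp only [der_ad K, Finset.sum_smul, mul_smul, Finset.smul_sum, smul_assoc]
    rw [Finset.sum_comm]
    refine Finset.sum_congr rfl fun e _ => Finset.sum_comm.trans ?_
    simp only [smul_comm (adm G (qh u) _ b)]
  rw [TA] at h ⊢
  simp only [t_d, act_ra0, map_sum, act_smul, Finset.sum_add_distrib, e, h, ll_ra0, adj_qd,
    map_add, map_sub, map_smul, LinearMap.sum_apply, LinearMap.smul_apply, smul_add, smul_sub,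
    Finset.sum_sub_distrib, Finset.smul_sum, smul_comm (adm G (qh u) _ b)]
  rw [Finset.sum_comm (f := fun a k => c k • _), Finset.sum_comm (f := fun a e => tw u w e • _)]
  abel

include H in
theorem ta (x : TX G s X) : TA xd K u w c v x := by
  induction x using mon_ind with
  | h0 α =>
    induction α using fs_ind with
    | h0 => exact ta_one xd K u w c v H
    | h1 α k ih =>
      rw [show monomial (α + Finsupp.single k 1) (1 : RQ G s X) = monomial α 1 * MvPolynomial.X k by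
        rw [MvPolynomial.X, monomial_mul, mul_one], ← ra0_D xd]
      rcases k with _ | k
      exacts [ta_du xd K u w c v ih, ta_d xd K u w c v ih k]
  | h1 a p hp =>
    rw [TA] at hp ⊢
    simp only [t_smul, act_smul, hp, H, map_add, map_smul, smul_add, smul_sub, Finset.smul_sum,
      Finset.sum_add_distrib, Finset.sum_smul, mul_smul, smul_comm (qf u a)]
    abel
  | h2 p q hp hq =>
    rw [TA] at hp hq ⊢
    simp only [map_add, hp, hq, smul_add, Finset.sum_add_distrib]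
    abel

theorem tw_dl : algebraMap ℂ (RQ G s Y) s * Ring.inverse (qx G s Y (D.r (QM.α u))) *
    w (qx G s Y (D.r (QM.α u))) = c0 xd G s Y w * qx G s Y (s • xd.vfd.lr (QM.α u)) := by
  have e := Ring.inverse_mul_cancel _ ((D.r_unit (QM.α u)).map (qx G s Y))
  rw [c0_eq xd, ← xd.vfd.mul_lr, map_mul, map_smul, Algebra.smul_def]
  linear_combination (algebraMap ℂ (RQ G s Y) s * c0 xd G s Y w * qx G s Y (xd.vfd.lr (QM.α u))) * e

include H in
theorem t_act (x : TX G s X) : act xd G s Y w (t xd K u x) =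
    ∑ k, c k • t xd K u (act xd G s X (v k) x) - (algebraMap ℂ (RQ G s Y) s *
      Ring.inverse (qx G s Y (D.r (QM.α u))) * w (qx G s Y (D.r (QM.α u)))) • t xd K u x +
    ∑ e, tw u w e • ll xd K s Y e (t xd K u x) := by
  rw [tw_dl xd]
  exact ta xd K u w c v H x

/-- **The transfer modules.** -/
def sl (s : ℂ) : SL (K.gs D s) where
  M X := TX G s X
  C X := cn xd G s X
  l X := ll xd K s X
  l_act X := ll_act xd K X
  l_br X := ll_br xd K X
  t u := t xd K u
  t_smul u := t_smul xd K u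
  t_id X := t_id xd K X
  t_comp u v := t_comp xd K u v
  t_l u := t_ll xd K u
  t_act u w _ c v H := t_act xd K u w c v H

end

end Vale.Agent.P286EX.Tr
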