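import Vale.Agent.P286EXB.Pt
import Vale.Agent.P286EK.Tw

/-!
# The generator without the equation, and cones
-/

set_option linter.all false

namespace Vale.Agent.P286EX

open CategoryTheory Matrix TensorProduct Vale.Agent.P286 Vale.Agent.P286.St Vale.Agent.P286.H847
  Vale.Agent.P286E Vale.Agent.P286EG Vale.Agent.P286.H710
open Vale.Agent.P286EK (DGA DD TD CZ RM TwA Tw sn w2)

noncomputable section

variable {I : Type} [SmallCategory I] {D : CD I} {G : Grp}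

/-- The generator without the equation, with the algebra `A` and the equation `T.F`. -/
structure PD0 (K : GK G) (xd : XD D) (s : ℂ) (U : Rep K) : Type 1 where
  A : DD I
  T : TD A
  cf : ∀ i, D.C i →ₐ[ℂ] (A.A i).R
  cf_gr : ∀ i z, cf i z ∈ (A.A i).gr 0
  cf_d : ∀ i z, (A.A i).d (cf i z) = 0
  cf_τ : ∀ {i j : I} (α : i ⟶ j) z, (A.τ α).f (cf i z) = cf j (D.κ α z)
  cf_F : ∀ i z, (T.F i).x * cf i z = cf i z * (T.F i).x
  u_eq : ∀ {i j : I} (α : i ⟶ j), (T.u α).1 = cf j (D.c α ^ 2)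
  P : HG (K.gs D s)
  sg : ∀ X : QO D, (P.K X).M.V →ₗ[RQ G s X] (P.K X).M.V
  sg_gr : ∀ (X : QO D) (m : ℤ) p, p ∈ (P.K X).M.gr m → sg X p = (m.negOnePow : ℤ) • p
  int : ∀ X : QO D, DirectSum.IsInternal (P.K X).M.gr
  ra : ∀ X : QO D, (A.A X.i).R →ₗ[ℂ] (P.K X).M.V →ₗ[RQ G s X] (P.K X).M.V
  ra_one : ∀ X p, ra X 1 p = p
  ra_mul : ∀ X a b p, ra X (a * b) p = ra X b (ra X a p)
  ra_d : ∀ X a p, (P.K X).M.d (ra X a p) = ra X a ((P.K X).M.d p) + ra X ((A.A X.i).d a) (sg X p)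
  ra_gr : ∀ X (m n : ℤ) p a, p ∈ (P.K X).M.gr m → a ∈ (A.A X.i).gr n →
    ra X a p ∈ (P.K X).M.gr (m + n)
  ra_act : ∀ X a v p, ra X a ((P.K X).C.act v p) = (P.K X).C.act v (ra X a p)
  ra_i : ∀ X a b p, ra X a (P.i X b p) = P.i X b (ra X a p)
  ra_t : ∀ {X Y : QO D} (u : Ar G s X Y) a p,
    (P.t u).f (ra X a p) = ra Y ((A.τ (QM.α u)).f a) ((P.t u).f p)
  e : ∀ X : QO D,
    Module.Basis (Finset (Fin 3) × (Fin 4 →₀ ℕ) × Fin U.n) (RQ G s X) (P.K X).M.V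
  e_gr : ∀ X (S : Finset (Fin 3)) β, e X (S, β) ∈ (P.K X).M.gr (-(S.card : ℤ))
  i_mem : ∀ X a S β, a ∈ S → P.i X a (e X (S, β)) = 0
  i_ins : ∀ X a S β, a ∉ S → P.i X a (e X (S, β)) =
    (-1 : RQ G s X) ^ (S.filter (· < a)).card • e X (insert a S, β)
  j : ∀ X : QO D, Fin 3 → ((P.K X).M.V →ₗ[RQ G s X] (P.K X).M.V)
  j_i : ∀ X a b p, j X a (P.i X b p) = (if a = b then p else 0) - P.i X b (j X a p)
  j_e : ∀ X a β, j X a (e X (∅, β)) = 0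
  j_t : ∀ {X Y : QO D} (u : Ar G s X Y) a p,
    j Y a ((P.t u).f p) = ∑ b, adm G (qh u) a b • (P.t u).f (j X b p)
  cf_j : ∀ X z a p, j X a (ra X (cf X.i z) p) = ra X (cf X.i z) (j X a p)
  act_e : ∀ (X : QO D) (v : Derivation ℂ (RQ G s X) (RQ G s X)) (c : Fin 4 → RQ G s X),
    (∀ z, v (qx G s X z) = c 0 * qx G s X (xd.pd X.i z)) → (∀ a, v (qY G s X a) = c a.succ) →
    ∀ S m k, (P.K X).C.act v (e X (S, m, k)) = ∑ l, c l • e X (S, m + Finsupp.single l 1, k)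
  d_ord : ∀ X (S : Finset (Fin 3)) (m : Fin 4 →₀ ℕ) k, (P.K X).M.d (e X (S, m, k)) ∈
    Submodule.span (RQ G s X) {p | ∃ (S' : Finset (Fin 3)) (m' : Fin 4 →₀ ℕ) (k' : Fin U.n),
      ∑ l, m' l ≤ ∑ l, m l + 1 ∧ S'.card < S.card ∧ p = e X (S', m', k')}
  F_e : ∀ X (m : Fin 4 →₀ ℕ) k, ra X (T.F X.i).x (e X (∅, m, k)) -
      ∑ l, ((m l : RQ G s X) * Fj xd G s X l) • e X (∅, m - Finsupp.single l 1, k) ∈
    Submodule.span (RQ G s X) {p | ∃ m' : Fin 4 →₀ ℕ, ∑ l, m' l + 2 ≤ ∑ l, m l ∧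
      p = e X (∅, m', k)}
  cf_ord : ∀ X z (m : Fin 4 →₀ ℕ) k, ra X (cf X.i z) (e X (∅, m, k)) ∈
    Submodule.span (RQ G s X) {p | ∃ (m' : Fin 4 →₀ ℕ) (k' : Fin U.n), ∑ l, m' l ≤ ∑ l, m l ∧
      p = e X (∅, m', k')}
  t_one : ∀ {X Y : QO D} (u : Ar G s X Y), Fib u → QM.h u = 1 → ∀ γ, (P.t u).f (e X γ) = e Y γ
  t_u : ∀ {X Y : QO D} (u : Ar G s X Y) k, (P.t u).f (e X (∅, 0, k)) =
    ∑ l, U.at (qh u) (qpt u) l k • e Y (∅, 0, l)
  t_ord : ∀ {X Y : QO D} (u : Ar G s X Y) (m : Fin 4 →₀ ℕ) k, (P.t u).f (e X (∅, m, k)) ∈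
    Submodule.span (RQ G s Y) {p | ∃ (m' : Fin 4 →₀ ℕ) (k' : Fin U.n), ∑ l, m' l ≤ ∑ l, m l ∧
      p = e Y (∅, m', k')}
  t_ord' : ∀ {X Y : QO D} (u : Ar G s X Y) (m : Fin 4 →₀ ℕ) k, e Y (∅, m, k) ∈
    Submodule.span (RQ G s Y) {p | ∃ (m' : Fin 4 →₀ ℕ) (k' : Fin U.n), ∑ l, m' l ≤ ∑ l, m l ∧
      p = (P.t u).f (e X (∅, m', k'))}
  bc : ∀ {X Y : QO D} (u : Ar G s X Y),
    ∃ e' : Module.Basis (Finset (Fin 3) × (Fin 4 →₀ ℕ) × Fin U.n) (RQ G s Y) (P.K Y).M.V,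
      ∀ γ, e' γ = (P.t u).f (e X γ)
  ra_cf : ∀ X z k, ra X (cf X.i z) (e X (∅, 0, k)) = qx G s X z • e X (∅, 0, k)

section Cone

variable {R : Type} [CommRing R] [Algebra ℂ R] {M : H697.DGM R} {A : DGA} (ρ : RA M A) (F : CZ A)

theorem RA.d_ra0 {a : A.R} (h : A.d a = 0) (p : M.M.V) : M.M.d (ρ.ra a p) = ρ.ra a (M.M.d p) := by
  rw [ρ.leib, h, map_zero, LinearMap.zero_apply, add_zero]

theorem RA.sg_ra0 {a : A.R} (h : a ∈ A.gr 0) (p : M.M.V) : ρ.sg (ρ.ra a p) = ρ.ra a (ρ.sg p) := by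
  rw [ρ.sg_ra, P286EK.sg_zero h]

theorem two_ext {V : Type} {x y : Fin 2 → V} (h0 : x 0 = y 0) (h1 : x 1 = y 1) : x = y :=
  funext fun l => by fin_cases l <;> assumption

/-- The cone of the right multiplication with `F`. -/
abbrev RA.coneK : H697.DGM R where
  M := ⟨Fin 2 → M.M.V, (ρ.rm.cone F).d, (ρ.rm.cone F).dd, (ρ.rm.cone F).gr, (ρ.rm.cone F).dgr⟩
  C := ⟨fun v x l => M.C.act v (x l), fun v x y => funext fun l => M.C.act_add v _ _,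
    fun v w x => funext fun l => M.C.add_act v w _, fun a v x => funext fun l => M.C.smul_act a v _,
    fun v a x => funext fun l => M.C.leibniz v a _, fun v w x => funext fun l => M.C.lie_act v w _⟩
  d_smul a x := two_ext
    (by rw [Pi.smul_apply, RM.cone_d0, RM.cone_d0]; exact M.d_smul a _)
    (by
      rw [Pi.smul_apply, RM.cone_d1, RM.cone_d1, smul_sub]
      exact congrArg₂ _ (M.d_smul a _) ((congrArg _ (ρ.sg_smul a _)).trans (ρ.ra_smul _ a _)))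
  d_act v x := two_ext
    (by rw [RM.cone_d0]; exact (M.d_act v _).trans (congrArg _ (RM.cone_d0 ρ.rm F x).symm))
    (by
      rw [RM.cone_d1]
      refine Eq.trans ?_ (congrArg (M.C.act v) (RM.cone_d1 ρ.rm F x).symm)
      exact (congrArg₂ _ (M.d_act v _) ((congrArg _ (ρ.sg_act v _)).trans
        (ρ.ra_act _ v _))).trans (map_sub (actL M v) _ _).symm)
  gr_smul m a x hx := (RM.cone_mem ρ.rm F m _).2 ⟨M.gr_smul _ a _ ((RM.cone_mem ρ.rm F m x).1 hx).1,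
    M.gr_smul _ a _ ((RM.cone_mem ρ.rm F m x).1 hx).2⟩
  gr_act m v x hx := (RM.cone_mem ρ.rm F m _).2 ⟨M.gr_act _ v _ ((RM.cone_mem ρ.rm F m x).1 hx).1,
    M.gr_act _ v _ ((RM.cone_mem ρ.rm F m x).1 hx).2⟩

theorem RA.coneK_d0 (x : Fin 2 → M.M.V) : (ρ.coneK F).M.d x 0 = M.M.d (x 0) := RM.cone_d0 ρ.rm F x

theorem RA.coneK_d1 (x : Fin 2 → M.M.V) :
    (ρ.coneK F).M.d x 1 = M.M.d (x 1) - ρ.ra F.x (ρ.sg (x 0)) := RM.cone_d1 ρ.rm F x

theorem RA.coneK_mem (m : ℤ) (x : Fin 2 → M.M.V) :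
    x ∈ (ρ.coneK F).M.gr m ↔ x 0 ∈ M.M.gr m ∧ x 1 ∈ M.M.gr (m - 1) := RM.cone_mem ρ.rm F m x

theorem RA.coneK_int : DirectSum.IsInternal (ρ.coneK F).M.gr := by
  obtain ⟨P⟩ := Prj.nonempty ρ.int
  refine Prj.internal (M := (ρ.coneK F).M) ⟨fun m => LinearMap.pi fun l =>
    (P.P (m - w2 l)).comp (LinearMap.proj l), fun m x l _ => P.mem _ _,
    fun m x hx => funext fun l => P.eq _ _ (hx l trivial),
    fun m n h x hx => funext fun l => P.ne _ _ (by omega) _ (hx l trivial), ?_⟩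
  refine eq_top_iff.2 fun x _ => ?_
  rw [← Finset.univ_sum_single x]
  refine sum_mem fun l _ => ?_
  induction x l using ρ.ind with
  | zero => rw [Pi.single_zero]; exact zero_mem _
  | hom m y hy =>
    refine Submodule.mem_iSup_of_mem (m + w2 l) fun k _ => ?_
    by_cases h : k = l
    · subst h
      rw [Pi.single_eq_same]
      change y ∈ M.M.gr (m + w2 k - w2 k)
      rwa [add_sub_cancel_right]
    · rw [Pi.single_eq_of_ne h]
      exact zero_mem _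
  | add y z hy hz => rw [Pi.single_add]; exact add_mem hy hz

/-- The right action on the cone. -/
def RA.cone : RA (ρ.coneK F) (TwA F) where
  sg := (ρ.rm.cone F).sg
  sg_gr := (ρ.rm.cone F).sg_gr
  int := ρ.coneK_int F
  ra := (ρ.rm.cone F).ra
  ra_mul := (ρ.rm.cone F).ra_mul
  leib := (ρ.rm.cone F).leib
  ra_gr := (ρ.rm.cone F).ra_gr
  ra_smul a r p := funext fun k => by
    rw [Pi.smul_apply, RM.cone_ra, RM.cone_ra, smul_add]
    exact congrArg₂ _ (ρ.ra_smul _ r _) (ρ.ra_smul _ r _)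
  ra_act a v p := funext fun k => by
    rw [RM.cone_ra]
    refine Eq.trans ?_ (congrArg (M.C.act v) (RM.cone_ra ρ.rm F a p k).symm)
    exact (congrArg₂ _ (ρ.ra_act _ v _) (ρ.ra_act _ v _)).trans (M.C.act_add v _ _).symm

theorem RA.cone_ra (a : (TwA F).R) (x : Fin 2 → M.M.V) (k : Fin 2) :
    (ρ.cone F).ra a x k = ρ.ra (TwA.m a 0 k) (x 0) + ρ.ra (TwA.m a 1 k) (x 1) :=
  RM.cone_ra ρ.rm F a x k

theorem RA.cone_sg (x : Fin 2 → M.M.V) (k : Fin 2) : (ρ.cone F).sg x k = sn w2 k • ρ.sg (x k) := rfl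

/-- The right action by linear maps. -/
def RA.raL : A.R →ₗ[ℂ] M.M.V →ₗ[R] M.M.V where
  toFun := ρ.raR
  map_add' a b := LinearMap.ext fun x => LinearMap.congr_fun (map_add ρ.ra a b) x
  map_smul' c a := LinearMap.ext fun x => LinearMap.congr_fun (map_smul ρ.ra c a) x

theorem RA.raL_apply (a : A.R) (x : M.M.V) : ρ.raL a x = ρ.ra a x := rfl

variable {V : Type} [AddCommGroup V] [Module R V] {n : ℕ}

/-- The indices. -/
def biE (n : ℕ) : (Σ _ : Fin 2, Finset (Fin 3) × (Fin 4 →₀ ℕ) × Fin n) ≃ Finset (Fin 3) × BI n where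
  toFun x := (x.2.1, x.2.2.1, x.2.2.2, decide (x.1 = 0))
  invFun x := ⟨if x.2.2.2 then 0 else 1, x.1, x.2.1, x.2.2.1⟩
  left_inv := by
    rintro ⟨l, S, m, k⟩
    fin_cases l <;> rfl
  right_inv := by
    rintro ⟨S, m, k, ε⟩
    cases ε <;> rfl

/-- The basis of the cone. -/
def cbas (b b' : Module.Basis (Finset (Fin 3) × (Fin 4 →₀ ℕ) × Fin n) R V) :
    Module.Basis (Finset (Fin 3) × BI n) R (Fin 2 → V) :=
  (Pi.basis fun l : Fin 2 => ![b, b'.map (LinearEquiv.neg R)] l).reindex (biE n)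

theorem cbas_t (b b' : Module.Basis (Finset (Fin 3) × (Fin 4 →₀ ℕ) × Fin n) R V) (S m k) :
    cbas b b' (S, m, k, true) = Pi.single 0 (b (S, m, k)) := by
  rw [cbas, Module.Basis.reindex_apply, Pi.basis_apply]
  rfl

theorem cbas_f (b b' : Module.Basis (Finset (Fin 3) × (Fin 4 →₀ ℕ) × Fin n) R V) (S m k) :
    cbas b b' (S, m, k, false) = Pi.single 1 (-b' (S, m, k)) := by
  rw [cbas, Module.Basis.reindex_apply, Pi.basis_apply]
  rfl

end Cone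

end

end Vale.Agent.P286EX
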