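import Vale.Agent.P286EL.Lf
import Vale.Agent.P286ER2.G0
import Vale.Agent.P286EX.Cop

/-!
# Image and kernel of the symbol map along a hypersurface
-/

set_option linter.all false

namespace Vale.Agent.P286EL

open MvPolynomial CategoryTheory Vale.Agent.P286E Vale.Agent.P286EI Vale.Agent.P286EX

noncomputable section

section

variable {κ R A : Type} [CommRing R] [Algebra ℂ R] [CommRing A] [Algebra ℂ A]
  {δ : κ → Derivation ℂ R R} (h : DO.Cm δ) (ψ : R →ₐ[ℂ] A)

theorem ev_surj (hψ : Function.Surjective ψ) : Function.Surjective (Tr.ev h ψ) := fun p => by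
  obtain ⟨q, rfl⟩ := map_surjective (ψ : R →+* A) hψ p
  exact ⟨_, Tr.ev_no h ψ q⟩

theorem ev_ker {F : R} (hk : ∀ z, ψ z = 0 → ∃ w, z = F * w) (q : DO δ) (hq : Tr.ev h ψ q = 0) :
    ∃ q', q = DO.of δ F * q' := by
  obtain ⟨p, rfl⟩ := DO.no_surj q
  rw [Tr.ev_no] at hq
  have h1 : C F ∣ p := (C_dvd_iff_dvd_coeff F p).2 fun α => hk _ (by
    have := congrArg (coeff α) hq
    rwa [coeff_map, coeff_zero] at this)
  obtain ⟨p', rfl⟩ := h1
  exact ⟨_, DO.no_C_mul F p'⟩

theorem ev_F {F : R} (hF : ψ F = 0) (q : DO δ) : Tr.ev h ψ (DO.of δ F * q) = 0 := by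
  rw [Tr.ev_of_mul, hF, zero_smul]

end

variable {I : Type} [SmallCategory I] (D : CD I) (i : I)

theorem zmk_surj : Function.Surjective (zmk D i) := Ideal.Quotient.mk_surjective

theorem zmk_ker (z : OV D i) (h : zmk D i z = 0) : ∃ w, z = FF D i * w :=
  Ideal.mem_span_singleton.1 (Ideal.Quotient.eq_zero_iff_mem.1 h)

theorem FF_reg (z : OV D i) (h : FF D i * z = 0) : z = 0 := quad_reg (D.f i) z h

theorem FF_dw (pd : Derivation ℂ (D.C i) (D.C i)) (x : DW (Fin 3) pd)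
    (h : DO.of _ (FF D i) * x = 0) : x = 0 := of_reg (wd_cm pd) (FF_reg D i) x h

theorem of_FF (pd : Derivation ℂ (D.C i) (D.C i)) : DO.of (wd (Fin 3) pd) (FF D i) =
    ∑ a, DW.y pd a * DW.y pd a - DW.cf (Fin 3) pd (D.f i) := by
  simp only [FF, map_sub, map_sum, sq, map_mul, DW.of_X, DW.of_C]

end

end Vale.Agent.P286EL
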