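import Vale.Agent.P286EL.Pd1

/-!
# The generator from the generator without the equation
-/

set_option linter.all false

namespace Vale.Agent.P286EX

open CategoryTheory Matrix TensorProduct Vale.Agent.P286 Vale.Agent.P286.St Vale.Agent.P286.H847
  Vale.Agent.P286E Vale.Agent.P286EG Vale.Agent.P286.H710
open Vale.Agent.P286EK (DGA DD TD CZ RM TwA Tw sn w2)

noncomputable section

variable {I : Type} [SmallCategory I] {D : CD I} {G : Grp} {K : GK G} {xd : XD D} {s : ℂ}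
  {U : Rep K}

namespace PD0

variable (P : PD0 K xd s U) {X Y : QO D}

/-- The part of order at most `N` without ghosts. -/
def fo (X : QO D) (N : ℕ) : Submodule (RQ G s X) (P.P.K X).M.V :=
  Submodule.span (RQ G s X) {p | ∃ (m' : Fin 4 →₀ ℕ) (k' : Fin U.n), ∑ l, m' l ≤ N ∧
    p = P.e X (∅, m', k')}

theorem fo_mono (X : QO D) {N N' : ℕ} (h : N ≤ N') : P.fo X N ≤ P.fo X N' :=
  Submodule.span_mono fun _ ⟨m, k, h1, h2⟩ => ⟨m, k, h1.trans h, h2⟩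

theorem cf_fo (X : QO D) (z : D.C X.i) (N : ℕ) {p : (P.P.K X).M.V} (h : p ∈ P.fo X N) :
    P.ra X (P.cf X.i z) p ∈ P.fo X N :=
  span_map' _ (by
    rintro _ ⟨m, k, h1, rfl⟩
    exact P.fo_mono X h1 (P.cf_ord X z m k)) h

theorem F_fo (X : QO D) (m : Fin 4 →₀ ℕ) (k : Fin U.n) :
    P.ra X (P.T.F X.i).x (P.e X (∅, m, k)) ∈ P.fo X (∑ l, m l) := by
  have h1 : Submodule.span (RQ G s X) {p | ∃ m' : Fin 4 →₀ ℕ, ∑ l, m' l + 2 ≤ ∑ l, m l ∧
      p = P.e X (∅, m', k)} ≤ P.fo X (∑ l, m l) :=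
    Submodule.span_mono fun _ ⟨m', h1, h2⟩ => ⟨m', k, by omega, h2⟩
  refine (sub_add_cancel (P.ra X (P.T.F X.i).x (P.e X (∅, m, k))) _) ▸
    add_mem (h1 (P.F_e X m k)) (sum_mem fun l _ => Submodule.smul_mem _ _
      (Submodule.subset_span ⟨_, k, Finset.sum_le_sum fun j _ => ?_, rfl⟩))
  rw [Finsupp.tsub_apply]
  exact Nat.sub_le _ _

theorem exists_gh (X : QO D) (S : Finset (Fin 3)) :
    ∃ L : (P.P.K X).M.V →ₗ[RQ G s X] (P.P.K X).M.V, (∀ β, L (P.e X (∅, β)) = P.e X (S, β)) ∧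
      ∀ a p, P.ra X a (L p) = L (P.ra X a p) := by
  induction S using Finset.induction_on with
  | empty => exact ⟨LinearMap.id, fun _ => rfl, fun _ _ => rfl⟩
  | insert a S ha ih =>
    obtain ⟨L, h1, h2⟩ := ih
    refine ⟨((-1 : RQ G s X) ^ (S.filter (· < a)).card) • (P.P.i X a).comp L, fun β => ?_,
      fun b p => ?_⟩
    · refine (congrArg (((-1 : RQ G s X) ^ (S.filter (· < a)).card) • ·)
        ((congrArg (P.P.i X a) (h1 β)).trans (P.i_ins X a S β ha))).trans ?_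
      rw [smul_smul, ← mul_pow, neg_mul_neg, one_mul, one_pow, one_smul]
    · exact (map_smul _ _ _).trans (congrArg (((-1 : RQ G s X) ^ (S.filter (· < a)).card) • ·)
        ((P.ra_i X b a _).trans (congrArg (P.P.i X a) (h2 b p))))

theorem d_e0 (X : QO D) (m : Fin 4 →₀ ℕ) (k : Fin U.n) :
    (P.P.K X).M.d (P.e X (∅, m, k)) = 0 := by
  have h := P.d_ord X ∅ m k
  rwa [show {p | ∃ (S' : Finset (Fin 3)) (m' : Fin 4 →₀ ℕ) (k' : Fin U.n),
      ∑ l, m' l ≤ ∑ l, m l + 1 ∧ S'.card < (∅ : Finset (Fin 3)).card ∧ p = P.e X (S', m', k')} = ∅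
    from Set.eq_empty_of_forall_notMem fun _ ⟨_, _, _, _, h, _⟩ => absurd h (Nat.not_lt_zero _),
    Submodule.span_empty, Submodule.mem_bot] at h

theorem sg_e (X : QO D) (S : Finset (Fin 3)) (β) :
    P.sg X (P.e X (S, β)) = ((-(S.card : ℤ)).negOnePow : ℤ) • P.e X (S, β) :=
  P.sg_gr X _ _ (P.e_gr X S β)

theorem em_gr (X : QO D) (ε : Bool) (m : ℤ) (p : (P.P.K X).M.V) (h : p ∈ (P.P.K X).M.gr m) :
    P.em X ε p ∈ (P.cK X).M.gr (m + if ε then 0 else 1) := by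
  cases ε
  · refine (P.cmem X _ _).2 ⟨by simp [em_f], ?_⟩
    simpa [em_f] using h
  · refine (P.cmem X _ _).2 ⟨?_, by simp [em_t]⟩
    simpa [em_t] using h

/-- The sign on the cone. -/
def csg (X : QO D) : (Fin 2 → (P.P.K X).M.V) →ₗ[RQ G s X] (Fin 2 → (P.P.K X).M.V) :=
  ((P.rho X).cone (P.T.F X.i)).sgR

/-- The base rings, as scalar matrices. -/
def ccf (i : I) : D.C i →ₐ[ℂ] (TwA (P.T.F i)).R := (TwA.sc (P.T.F i)).comp (P.cf i)

theorem cra_sc (X : QO D) (a : (P.A.A X.i).R) (x : Fin 2 → (P.P.K X).M.V) :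
    P.cra X (TwA.sc _ a) x = fun l => P.ra X a (x l) :=
  two_ext (by rw [cra_apply]; simp [TwA.sc_m]) (by rw [cra_apply]; simp [TwA.sc_m])

theorem cd_ord (X : QO D) (S : Finset (Fin 3)) (β : BI U.n) : (P.cK X).M.d (P.ce X (S, β)) ∈
    Submodule.span (RQ G s X) {p | ∃ (S' : Finset (Fin 3)) (β' : BI U.n), β'.ord ≤ β.ord + 1 ∧
      (S'.card < S.card ∨ (S' = S ∧ β.2.2 = true ∧ β'.2.2 = false)) ∧ p = P.ce X (S', β')} := by
  obtain ⟨m, k, ε⟩ := β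
  have h1 : P.em X ε ((P.P.K X).M.d (P.e X (S, m, k))) ∈ Submodule.span (RQ G s X)
      {p | ∃ (S' : Finset (Fin 3)) (β' : BI U.n), β'.ord ≤ BI.ord (m, k, ε) + 1 ∧ (S'.card < S.card ∨
        (S' = S ∧ ε = true ∧ β'.2.2 = false)) ∧ p = P.ce X (S', β')} :=
    span_map' _ (by
      rintro _ ⟨S', m', k', h1, h2, rfl⟩
      exact Submodule.subset_span ⟨S', (m', k', ε), h1, Or.inl h2, (P.ce_eq X S' m' k' ε).symm⟩)
      (P.d_ord X S m k)
  rw [ce_eq]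
  cases ε
  · exact (P.d_em_f X _).symm ▸ h1
  · obtain ⟨L, hL, hL'⟩ := P.exists_gh X S
    rw [d_em_t, sg_e, map_zsmul, map_zsmul, ← hL, hL']
    refine add_mem (hL (m, k) ▸ h1) (zsmul_mem (span_map' ((P.em X false).comp L) ?_
      (P.F_fo X m k)) _)
    rintro _ ⟨m', k', h2, rfl⟩
    exact Submodule.subset_span ⟨S, (m', k', false), h2.trans (Nat.le_succ _),
      Or.inr ⟨rfl, rfl, rfl⟩, (congrArg (P.em X false) (hL _)).trans (P.ce_eq X S m' k' _).symm⟩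

/-- The correction as an equivalence. -/
def giE (u : Ar G s X Y) (l : Fin 2) : (P.P.K Y).M.V ≃ₗ[RQ G s Y] (P.P.K Y).M.V :=
  LinearEquiv.ofLinear (P.gi u l) (P.ra Y (P.T.g (QM.α u) l).1) (LinearMap.ext (P.gi_g u l))
    (LinearMap.ext (P.g_gi u l))

/-- The injectivity condition. -/
def UnInj : Prop := ∀ i m a, Cy (TwA (P.T.F i)).G m a →
  ∀ p : Fin U.n → Fin 2 → (P.P.K (Zo xd i)).M.V,
    (∀ k, p k ∈ (P.cK (Zo xd i)).M.gr (m - 1)) → (∀ k, eqv xd U P.cH.fa i p k = 0) →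
    (∀ k, (P.cK (Zo xd i)).M.d (p k) = P.cra (Zo xd i) a (P.ce _ (∅, 0, k, true))) →
    Bd (TwA (P.T.F i)).G m a

/-- The surjectivity condition. -/
def UnSur : Prop := ∀ i m (p : Fin U.n → Fin 2 → (P.P.K (Zo xd i)).M.V),
    (∀ k, Cy (P.cK (Zo xd i)).M m (p k)) →
    (∀ k, eqv xd U P.cH.fa i p k = 0) → ∃ a, Cy (TwA (P.T.F i)).G m a ∧
      ∃ q : Fin U.n → Fin 2 → (P.P.K (Zo xd i)).M.V,
        (∀ k, q k ∈ (P.cK (Zo xd i)).M.gr (m - 1)) ∧ (∀ k, eqv xd U P.cH.fa i q k = 0) ∧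
        ∀ k, (P.cK (Zo xd i)).M.d (q k) = p k - P.cra (Zo xd i) a (P.ce _ (∅, 0, k, true))

theorem cact_e (X : QO D) (v : Derivation ℂ (RQ G s X) (RQ G s X)) (c : Fin 4 → RQ G s X)
    (h1 : ∀ z, v (qx G s X z) = c 0 * qx G s X (xd.pd X.i z))
    (h2 : ∀ a, v (qY G s X a) = c a.succ) (S m k ε) :
    (P.cK X).C.act v (P.ce X (S, m, k, ε)) =
      ∑ l, c l • P.ce X (S, m + Finsupp.single l 1, k, ε) := by
  rw [ce_eq]
  refine (P.em_op X ε (actL (P.P.K X) v) _).trans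
    ((congrArg (P.em X ε) (P.act_e X v c h1 h2 S m k)).trans ((map_sum _ _ _).trans ?_))
  exact Finset.sum_congr rfl fun l _ =>
    (map_smul _ _ _).trans (congrArg (c l • ·) (P.ce_eq X S _ k ε).symm)

theorem cd_e1 (X : QO D) (m : Fin 4 →₀ ℕ) (k : Fin U.n) :
    (P.cK X).M.d (P.ce X (∅, m, k, true)) -
      ∑ l, ((m l : RQ G s X) * Fj xd G s X l) • P.ce X (∅, m - Finsupp.single l 1, k, false) ∈
    Submodule.span (RQ G s X) {p | ∃ m' : Fin 4 →₀ ℕ, ∑ l, m' l + 2 ≤ ∑ l, m l ∧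
      p = P.ce X (∅, m', k, false)} := by
  have h := span_map' (P.em X false) (t := Submodule.span (RQ G s X)
    {p | ∃ m' : Fin 4 →₀ ℕ, ∑ l, m' l + 2 ≤ ∑ l, m l ∧ p = P.ce X (∅, m', k, false)}) (by
      rintro _ ⟨m', h1, rfl⟩
      exact Submodule.subset_span ⟨m', h1, (P.ce_eq X ∅ m' k false).symm⟩) (P.F_e X m k)
  have h2 : (P.cK X).M.d (P.ce X (∅, m, k, true)) =
      P.em X false (P.ra X (P.T.F X.i).x (P.e X (∅, m, k))) := by
    rw [ce_eq, d_em_t, d_e0, sg_e, map_zero, zero_add]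
    simp
  rw [map_sub, map_sum, ← h2, Finset.sum_congr rfl fun l _ =>
    (map_smul (P.em X false) _ _).trans (congrArg (_ • ·) (P.ce_eq X ∅ _ k false).symm)] at h
  exact h

theorem ct_ce (u : Ar G s X Y) (S m k ε) : (P.ct u).f (P.ce X (S, m, k, ε)) =
    P.em Y ε (P.gi u (ix ε) ((P.P.t u).f (P.e X (S, m, k)))) :=
  (congrArg (P.ct u).f (P.ce_eq X S m k ε)).trans (P.ct_em u ε _)

theorem ct_one (u : Ar G s X Y) (h : Fib u) (h' : QM.h u = 1) (γ) :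
    (P.ct u).f (P.ce X γ) = P.ce Y γ := by
  obtain ⟨S, m, k, ε⟩ := γ
  exact (P.ct_ce u S m k ε).trans ((congrArg (P.em Y ε)
    ((P.gi_fib u h _ _).trans (P.t_one u h h' _))).trans (P.ce_eq Y S m k ε).symm)

theorem ct_u (u : Ar G s X Y) (k : Fin U.n) : (P.ct u).f (P.ce X (∅, 0, k, true)) =
    ∑ l, U.at (qh u) (qpt u) l k • P.ce Y (∅, 0, l, true) :=
  (P.ct_ce u ∅ 0 k true).trans ((congrArg (P.em Y true) ((P.gi_zero u _).trans (P.t_u u k))).trans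
    ((map_sum _ _ _).trans (Finset.sum_congr rfl fun l _ => (map_smul _ _ _).trans
      (congrArg (U.at (qh u) (qpt u) l k • ·) (P.ce_eq Y ∅ 0 l true).symm))))

theorem ct_ord (u : Ar G s X Y) (β : BI U.n) : (P.ct u).f (P.ce X (∅, β)) ∈
    Submodule.span (RQ G s Y)
      {p | ∃ β' : BI U.n, β'.ord ≤ β.ord ∧ β'.2.2 = β.2.2 ∧ p = P.ce Y (∅, β')} := by
  obtain ⟨m, k, ε⟩ := β
  obtain ⟨z, w, -, hw⟩ := P.exists_gz (QM.α u) (ix ε)
  have h1 : P.gi u (ix ε) ((P.P.t u).f (P.e X (∅, m, k))) ∈ P.fo Y (∑ l, m l) := by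
    rw [gi, hw]
    exact P.cf_fo Y w _ (P.t_ord u m k)
  rw [ct_ce]
  refine span_map' (P.em Y ε) ?_ h1
  rintro _ ⟨m', k', h2, rfl⟩
  exact Submodule.subset_span ⟨(m', k', ε), h2, rfl, (P.ce_eq Y ∅ m' k' ε).symm⟩

theorem ct_ord' (u : Ar G s X Y) (β : BI U.n) : P.ce Y (∅, β) ∈ Submodule.span (RQ G s Y)
      {p : Fin 2 → (P.P.K Y).M.V | ∃ β' : BI U.n, β'.ord ≤ β.ord ∧ β'.2.2 = β.2.2 ∧
        p = (P.ct u).f (P.ce X (∅, β'))} := by
  obtain ⟨m, k, ε⟩ := β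
  obtain ⟨z, w, hz, -⟩ := P.exists_gz (QM.α u) (ix ε)
  have h1 : P.ra Y (P.T.g (QM.α u) (ix ε)).1 (P.e Y (∅, m, k)) ∈ P.fo Y (∑ l, m l) := by
    rw [hz]
    exact P.cf_ord Y z m k
  rw [ce_eq, ← P.gi_g u (ix ε) (P.e Y (∅, m, k))]
  refine span_map' ((P.em Y ε).comp (P.gi u (ix ε))) ?_ h1
  rintro _ ⟨m', k', h2, rfl⟩
  refine span_map' ((P.em Y ε).comp (P.gi u (ix ε))) ?_ (P.t_ord' u m' k')
  rintro _ ⟨m'', k'', h3, rfl⟩
  exact Submodule.subset_span ⟨(m'', k'', ε), h3.trans h2, rfl, (P.ct_ce u ∅ m'' k'' ε).symm⟩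

theorem cbc (u : Ar G s X Y) : ∃ e' : Module.Basis (Finset (Fin 3) × BI U.n) (RQ G s Y)
    (Fin 2 → (P.P.K Y).M.V), ∀ γ, e' γ = (P.ct u).f (P.ce X γ) := by
  obtain ⟨e', he⟩ := P.bc u
  refine ⟨cbas e' (e'.map (P.giE u 1)), ?_⟩
  rintro ⟨S, m, k, ε⟩
  rw [ct_ce, ← he]
  cases ε
  · exact (cbas_f _ _ S m k).trans (P.em_f Y _).symm
  · exact (cbas_t _ _ S m k).trans (congrArg (P.em Y true) (P.gi_zero u _).symm)

theorem cra_cf (X : QO D) (z : D.C X.i) (k : Fin U.n) :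
    P.cra X (P.ccf X.i z) (P.ce X (∅, 0, k, true)) = qx G s X z • P.ce X (∅, 0, k, true) := by
  rw [ce_eq]
  exact (P.cra_sc X _ _).trans ((P.em_op X true ((P.ra X _).restrictScalars ℂ) _).trans
    ((congrArg (P.em X true) (P.ra_cf X z k)).trans (map_smul _ _ _)))

/-- The generator. -/
def pd (hi : P.UnInj) (hs : P.UnSur) : PD K xd s U where
  A := Tw P.T
  cf := P.ccf
  cf_gr i z := TwA.sc_mem _ (P.cf_gr i z)
  cf_d i z := TwA.d_sc _ (P.cf_d i z)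
    ((P.cf_F i z).trans (congrArg (· * _) (P286EK.sg_zero (P.cf_gr i z)).symm))
  cf_τ {i j} α z := (P.T.n_sc α (P.cf i z) (by
    rw [P.cf_τ, P.u_eq, ← map_mul, ← map_mul, mul_comm])).trans (congrArg _ (P.cf_τ α z))
  P := P.cH
  sg := P.csg
  sg_gr X := ((P.rho X).cone (P.T.F X.i)).sg_gr
  int X := ((P.rho X).cone (P.T.F X.i)).int
  ra := P.cra
  ra_one X p := (congrArg (fun a => P.cra X a p) (map_one (TwA.sc (P.T.F X.i))).symm).trans
    ((P.cra_sc X 1 p).trans (funext fun l => P.ra_one X (p l)))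
  ra_mul X := ((P.rho X).cone (P.T.F X.i)).ra_mul
  ra_d X := ((P.rho X).cone (P.T.F X.i)).leib
  ra_gr X := ((P.rho X).cone (P.T.F X.i)).ra_gr
  ra_act X := ((P.rho X).cone (P.T.F X.i)).ra_act
  ra_i X a b p := funext fun k => (P.cra_apply X a _ k).trans
    ((congrArg₂ (· + ·) (P.ra_i X _ b _) (P.ra_i X _ b _)).trans
      ((map_add (P.P.i X b) _ _).symm.trans (congrArg (P.P.i X b) (P.cra_apply X a p k).symm)))
  ra_t := P.cra_t
  e := P.ce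
  e_gr X S β := (P.ce_eq X S β.1 β.2.1 β.2.2).symm ▸ P.em_gr X β.2.2 _ _ (P.e_gr X S _)
  i_mem X a S β h := (congrArg ((P.P.i X a).compLeft (Fin 2)) (P.ce_eq X S β.1 β.2.1 β.2.2)).trans
    ((P.em_lin X _ _ _).trans ((congrArg (P.em X _) (P.i_mem X a S _ h)).trans (map_zero _)))
  i_ins X a S β h := (congrArg ((P.P.i X a).compLeft (Fin 2)) (P.ce_eq X S β.1 β.2.1 β.2.2)).trans
    ((P.em_lin X _ _ _).trans ((congrArg (P.em X _) (P.i_ins X a S _ h)).trans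
      ((map_smul _ _ _).trans (congrArg (_ • ·) (P.ce_eq X _ β.1 β.2.1 β.2.2).symm))))
  j X a := (P.j X a).compLeft (Fin 2)
  j_i X a b p := funext fun l => (P.j_i X a b (p l)).trans
    (congrArg (· - _) (apply_ite (fun x : Fin 2 → (P.P.K X).M.V => x l) (a = b) p 0).symm)
  j_e X a β := (congrArg ((P.j X a).compLeft (Fin 2)) (P.ce_eq X ∅ β.1 β.2.1 β.2.2)).trans
    ((P.em_lin X _ _ _).trans ((congrArg (P.em X _) (P.j_e X a _)).trans (map_zero _)))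
  j_t {X Y} u a p := funext fun l => (P.gi_j u l a _).trans
    ((congrArg (P.gi u l) (P.j_t u a (p l))).trans ((map_sum _ _ _).trans
      ((Finset.sum_congr rfl fun b _ => map_smul _ _ _).trans (Finset.sum_apply l _ fun b =>
        adm G (qh u) a b • (fun k => P.gi u k ((P.P.t u).f (P.j X b (p k))) :
          Fin 2 → (P.P.K Y).M.V)).symm)))
  act_e := P.cact_e
  d_e0 X m k := (congrArg (P.cK X).M.d (P.ce_eq X ∅ m k false)).trans ((P.d_em_f X _).trans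
    ((congrArg (P.em X false) (P.d_e0 X m k)).trans (map_zero _)))
  d_e1 := P.cd_e1
  d_ord := P.cd_ord
  t_one := P.ct_one
  t_u := P.ct_u
  t_ord := P.ct_ord
  t_ord' := P.ct_ord'
  bc := P.cbc
  ra_cf := P.cra_cf
  un_inj := hi
  un_sur := hs

theorem pd_A (hi : P.UnInj) (hs : P.UnSur) : (P.pd hi hs).A = Tw P.T := rfl

end PD0

end

end Vale.Agent.P286EX
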