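import Vale.Agent.P286EL.J

/-!
# The twist of a direct summand
-/

set_option linter.all false

namespace Vale.Agent.P286EL

open Matrix Vale.Agent.P286 Vale.Agent.P286E Vale.Agent.P286EN Vale.Agent.P286EB

noncomputable section

attribute [-instance] HahnSeries.powerSeriesAlgebra

variable {A B : Type} [CommRing A] [Algebra ℂ A] [CommRing B] [Algebra ℂ B] {N : ℕ} {E : Ell}
  {e : Rt E} {π π' : Matrix (Fin N) (Fin N) (Ls A)} {M M' : Submodule A (Fin N → Ls A)}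

theorem mem_tw {m : Fin N → Ls A} : m ∈ tw e π M ↔ m - π *ᵥ m ∈ M ∧
    j1 e A • (π *ᵥ m) ∈ M ∧ j2 e A • (π *ᵥ m) ∈ M := by
  rw [tw, Submodule.mem_inf, Submodule.mem_inf, Submodule.mem_comap, Submodule.mem_comap,
    Submodule.mem_comap, act_apply, act_apply, act_apply, sub_mulVec, one_mulVec, smul_mulVec,
    smul_mulVec, and_assoc]
  rfl

theorem mem_tw' {m : Fin N → Ls A} : m ∈ tw e π M ↔ m - π *ᵥ m ∈ M ∧
    ∀ w : Ls A, IsJ e w → w • (π *ᵥ m) ∈ M :=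
  mem_tw.trans (and_congr_right fun _ => ⟨fun h w hw => by
    rcases hw with rfl | rfl
    exacts [h.1, h.2], fun h => ⟨h _ (Or.inl rfl), h _ (Or.inr rfl)⟩⟩)

theorem mem_tw_J (h : Stab (Rg E A) M) {m : Fin N → Ls A} :
    m ∈ tw e π M ↔ m - π *ᵥ m ∈ M ∧ π *ᵥ m ∈ J e M := by
  rw [mem_tw', mem_J_iff h]

theorem tw_zero (M : Submodule A (Fin N → Ls A)) : tw e 0 M = M := by
  ext m
  simp [mem_tw]

theorem tw_cm_zero (M : Submodule A (Fin N → Ls A)) : tw e (cm 0) M = M := by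
  rw [cm_zero, tw_zero]

theorem mem_tw_one {m : Fin N → Ls A} : m ∈ tw e 1 M ↔ j1 e A • m ∈ M ∧ j2 e A • m ∈ M := by
  simp [mem_tw]

theorem tw_one (h : Stab (Rg E A) M) : tw e 1 M = J e M := by
  ext m
  simp [mem_tw_J h]

theorem tw_mono (h : M ≤ M') : tw e π M ≤ tw e π M' := fun _ hm =>
  mem_tw.2 ⟨h (mem_tw.1 hm).1, h (mem_tw.1 hm).2.1, h (mem_tw.1 hm).2.2⟩

theorem stab_tw {R : Subring (Ls A)} (h : Stab R M) : Stab R (tw e π M) := fun r hr m hm => by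
  rw [mem_tw] at hm ⊢
  rw [mulVec_smul, ← smul_sub, smul_comm _ r, smul_comm _ r]
  exact ⟨h r hr _ hm.1, h r hr _ hm.2.1, h r hr _ hm.2.2⟩

/-- Equivariance. -/
theorem tw_lat (f : A →ₐ[ℂ] B) {P : Submodule B (Fin N → Ls B)}
    {a ϖ : Matrix (Fin N) (Fin N) (Ls B)} (hπ : a * π.map (lm (f : A →+* B)) = ϖ * a)
    (h : ∀ m ∈ M, a *ᵥ (lm (f : A →+* B) ∘ m) ∈ P) :
    ∀ m ∈ tw e π M, a *ᵥ (lm (f : A →+* B) ∘ m) ∈ tw e ϖ P := fun m hm => by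
  rw [mem_tw] at hm ⊢
  have h0 : ϖ *ᵥ a *ᵥ (lm (f : A →+* B) ∘ m) = a *ᵥ (lm (f : A →+* B) ∘ (π *ᵥ m)) := by
    rw [mulVec_mulVec, ← hπ, lm_mulVec, mulVec_mulVec]
  have h1 := h _ hm.1
  have h2 := h _ hm.2.1
  have h3 := h _ hm.2.2
  rw [lm_comp_smul, mulVec_smul] at h2 h3
  rw [lm_j1] at h2
  rw [lm_j2] at h3
  rw [h0, ← mulVec_sub]
  exact ⟨(congrArg (fun u => a *ᵥ u ∈ P) (funext fun i => map_sub (lm (f : A →+* B)) _ _)).mp h1,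
    h2, h3⟩

theorem tw_op {a : Matrix (Fin N) (Fin N) (Ls A)} (hπ : a * π = π' * a)
    (h : ∀ m ∈ M, a *ᵥ m ∈ M') : ∀ m ∈ tw e π M, a *ᵥ m ∈ tw e π' M' :=
  tw_lat (AlgHom.id ℂ A) hπ h

theorem tw_map {a b : Matrix (Fin N) (Fin N) (Ls A)} (hab : a * b = 1) (hπ : a * π = π' * a) :
    (tw e π M).map (act a) = tw e π' (M.map (act a)) := by
  have hba : b * a = 1 := mul_eq_one_comm.1 hab
  refine le_antisymm ?_ fun m hm => ⟨b *ᵥ m, tw_op (π := π') ?_ ?_ m hm, ?_⟩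
  · rintro _ ⟨m, hm, rfl⟩
    exact tw_op (M' := M.map (act a)) hπ (fun m hm => ⟨m, hm, rfl⟩) m hm
  · rw [← mul_one (b * π'), ← hab, ← mul_assoc, mul_assoc b, ← hπ, ← mul_assoc, hba, one_mul]
  · rintro _ ⟨u, hu, rfl⟩
    rwa [act_apply, mulVec_mulVec, hba, one_mulVec]
  · rw [act_apply, mulVec_mulVec, hab, one_mulVec]

theorem pi_pi (hπ : π * π = π) (m : Fin N → Ls A) : π *ᵥ π *ᵥ m = π *ᵥ m := by
  rw [mulVec_mulVec, hπ]

theorem pi_sub (hπ : π * π = π) (m : Fin N → Ls A) : π *ᵥ (m - π *ᵥ m) = 0 := by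
  rw [mulVec_sub, pi_pi hπ, sub_self]

/-- The projector preserves the twist. -/
theorem pi_mem_tw (hπ : π * π = π) {m : Fin N → Ls A} (hm : m ∈ tw e π M) :
    π *ᵥ m ∈ tw e π M := by
  rw [mem_tw] at hm ⊢
  rw [pi_pi hπ, sub_self]
  exact ⟨zero_mem _, hm.2⟩

theorem mem_tw_of_ker {m : Fin N → Ls A} (h : π *ᵥ m = 0) : m ∈ tw e π M ↔ m ∈ M := by
  simp [mem_tw, h]

theorem mem_tw_of_fix (hM : Stab (Rg E A) M) {m : Fin N → Ls A} (h : π *ᵥ m = m) :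
    m ∈ tw e π M ↔ m ∈ J e M := by
  simp [mem_tw_J hM, h]

theorem sub_mem_tw (hπ : π * π = π) (hp : ∀ m ∈ M, π *ᵥ m ∈ M) {m : Fin N → Ls A} (hm : m ∈ M) :
    m - π *ᵥ m ∈ tw e π M := (mem_tw_of_ker (pi_sub hπ m)).2 (M.sub_mem hm (hp m hm))

theorem IsJ.mem_tw (hM : Stab (Rg E A) M) (hπ : π * π = π) (hp : ∀ m ∈ M, π *ᵥ m ∈ M) {w : Ls A}
    (hw : IsJ e w) {m : Fin N → Ls A} (hm : m ∈ M) : w • (π *ᵥ m) ∈ tw e π M :=
  (mem_tw_of_fix hM (by rw [mulVec_smul, pi_pi hπ])).2 (hw.mem (hp m hm))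

/-- The generators of the twist. -/
theorem tw_gen (hM : Stab (Px A) M) (hπ : π * π = π) {m : Fin N → Ls A} (hm : m ∈ tw e π M) :
    ∃ m0 ∈ M, ∃ m1 ∈ M, ∃ m2 ∈ M,
      m = (m0 - π *ᵥ m0) + j1 e A • (π *ᵥ m1) + j2 e A • (π *ᵥ m2) := by
  rw [mem_tw'] at hm
  obtain ⟨u, hu, w, hw, h⟩ := mem_J_of hM hm.2
  refine ⟨_, hm.1, u, hu, w, hw, ?_⟩
  rw [pi_sub hπ, sub_zero, add_assoc, ← mulVec_smul, ← mulVec_smul, ← mulVec_add, ← h, pi_pi hπ,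
    sub_add_cancel]

theorem mem_tw_gen (hM : Stab (Rg E A) M) (hπ : π * π = π) (hp : ∀ m ∈ M, π *ᵥ m ∈ M)
    {m : Fin N → Ls A} : m ∈ tw e π M ↔ ∃ m0 ∈ M, ∃ m1 ∈ M, ∃ m2 ∈ M,
      m = (m0 - π *ᵥ m0) + j1 e A • (π *ᵥ m1) + j2 e A • (π *ᵥ m2) :=
  ⟨tw_gen hM.px hπ, by
    rintro ⟨m0, h0, m1, h1, m2, h2, rfl⟩
    exact add_mem (add_mem (sub_mem_tw hπ hp h0) (IsJ.mem_tw hM hπ hp (Or.inl rfl) h1))
      (IsJ.mem_tw hM hπ hp (Or.inr rfl) h2)⟩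

theorem tw_le (hM : Stab (Px A) M) (hπ : π * π = π) (h0 : ∀ m ∈ M, m - π *ᵥ m ∈ M')
    (h1 : ∀ w : Ls A, IsJ e w → ∀ m ∈ M, w • (π *ᵥ m) ∈ M') : tw e π M ≤ M' := fun m hm => by
  obtain ⟨m0, a0, m1, a1, m2, a2, rfl⟩ := tw_gen hM hπ hm
  exact add_mem (add_mem (h0 _ a0) (h1 _ (Or.inl rfl) _ a1)) (h1 _ (Or.inr rfl) _ a2)

theorem tw_tw (hM : Stab (Rg E A) M) (hπ : π * π = π) (hp : ∀ m ∈ M, π *ᵥ m ∈ M) :
    tw e π (tw e π M) = M := by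
  refine le_antisymm (tw_le (stab_tw hM.px) hπ (fun m hm => (mem_tw.1 hm).1)
    fun w hw m hm => (mem_tw'.1 hm).2 w hw) fun m hm => ?_
  exact mem_tw'.2 ⟨sub_mem_tw hπ hp hm, fun w hw => IsJ.mem_tw hM hπ hp hw hm⟩

theorem tw_one_one (hM : Stab (Rg E A) M) : tw e 1 (tw e 1 M) = M :=
  tw_tw hM (one_mul 1) fun m hm => by rwa [one_mulVec]

/-- The converse of the equivariance. -/
theorem tw_lat' (f : A →ₐ[ℂ] B) {P : Submodule B (Fin N → Ls B)}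
    {a ϖ : Matrix (Fin N) (Fin N) (Ls B)} (hM : Stab (Rg E A) M) (h1 : π * π = π)
    (hp : ∀ m ∈ M, π *ᵥ m ∈ M) (hP : Stab (Rg E B) P) (h2 : ϖ * ϖ = ϖ) (hq : ∀ m ∈ P, ϖ *ᵥ m ∈ P)
    (hπ : a * π.map (lm (f : A →+* B)) = ϖ * a)
    (h : ∀ m ∈ tw e π M, a *ᵥ (lm (f : A →+* B) ∘ m) ∈ tw e ϖ P) :
    ∀ m ∈ M, a *ᵥ (lm (f : A →+* B) ∘ m) ∈ P := by
  have h3 := tw_lat (e := e) f hπ h
  rwa [tw_tw hM h1 hp, tw_tw hP h2 hq] at h3

/-- The twist depends only on the two summands. -/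
theorem tw_congr (hπ : π * π = π) (h0 : ∀ m, π *ᵥ m = 0 → (m ∈ M ↔ m ∈ M'))
    (h1 : ∀ m, π *ᵥ m = m → (m ∈ M ↔ m ∈ M')) : tw e π M = tw e π M' := by
  ext m
  rw [mem_tw, mem_tw, h0 _ (pi_sub hπ m), h1 _ (by rw [mulVec_smul, pi_pi hπ]),
    h1 _ (by rw [mulVec_smul, pi_pi hπ])]

theorem dot_adj {F : Matrix (Fin N) (Fin N) (Ls A)} (ha : πᵀ * F = F * π) (u w : Fin N → Ls A) :
    (π *ᵥ u) ⬝ᵥ F *ᵥ w = u ⬝ᵥ F *ᵥ (π *ᵥ w) := by
  rw [mulVec_mulVec, ← ha, ← mulVec_mulVec, dotProduct_mulVec u, vecMul_transpose]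

theorem frm_tw {F : Matrix (Fin N) (Fin N) A} (hM : Stab (Rg E A) M) (hπ : π * π = π)
    (hp : ∀ m ∈ M, π *ᵥ m ∈ M) (ha : πᵀ * cm F = cm F * π) (h : Frm E F M) :
    Frm E F (tw e π M) := fun m hm m' hm' => by
  rw [mem_tw_J hM] at hm hm'
  have h1 : m ⬝ᵥ cm F *ᵥ m' = (m - π *ᵥ m) ⬝ᵥ cm F *ᵥ (m' - π *ᵥ m') +
      (π *ᵥ m) ⬝ᵥ cm F *ᵥ (π *ᵥ m') := by
    rw [mulVec_sub, sub_dotProduct, dotProduct_sub, dotProduct_sub, dot_adj ha, dot_adj ha,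
      pi_pi hπ]
    ring
  rw [h1]
  exact (Rg E A).add_mem (h _ hm.1 _ hm'.1) (frm_J h _ hm.2 _ hm'.2)

/-! ### The module `J` -/

theorem inJ_iff {z : Ls A} : InJ e z ↔ ∀ w : Ls A, IsJ e w → w * z ∈ Rg E A :=
  ⟨fun h w hw => by
    rcases hw with rfl | rfl
    exacts [h.1, h.2], fun h => ⟨h _ (Or.inl rfl), h _ (Or.inr rfl)⟩⟩

theorem IsJ.inJ {w : Ls A} (hw : IsJ e w) : InJ e w := inJ_iff.2 fun _ hu => hu.mul hw

theorem inJ_j1 : InJ e (j1 e A) := IsJ.inJ (Or.inl rfl)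

theorem inJ_j2 : InJ e (j2 e A) := IsJ.inJ (Or.inr rfl)

theorem inJ_zero : InJ e (0 : Ls A) := inJ_iff.2 fun w _ => by rw [mul_zero]; exact zero_mem _

theorem inJ_add {u z : Ls A} (hu : InJ e u) (hz : InJ e z) : InJ e (u + z) :=
  inJ_iff.2 fun w hw => by rw [mul_add]; exact add_mem (inJ_iff.1 hu w hw) (inJ_iff.1 hz w hw)

theorem inJ_mul {r z : Ls A} (hr : r ∈ Rg E A) (hz : InJ e z) : InJ e (r * z) :=
  inJ_iff.2 fun w hw => by rw [mul_left_comm]; exact mul_mem hr (inJ_iff.1 hz w hw)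

theorem inJ_neg {z : Ls A} (hz : InJ e z) : InJ e (-z) := by
  rw [← neg_one_mul]
  exact inJ_mul (neg_mem (one_mem _)) hz

theorem inJ_sub {u z : Ls A} (hu : InJ e u) (hz : InJ e z) : InJ e (u - z) := by
  rw [sub_eq_add_neg]
  exact inJ_add hu (inJ_neg hz)

theorem inJ_smul (c : A) {z : Ls A} (hz : InJ e z) : InJ e (c • z) := by
  rw [← C_mul]
  exact inJ_mul (Px_le_Rg E (C_mem_Px c)) hz

theorem inJ_gen {z : Ls A} :
    InJ e z ↔ ∃ r ∈ Rg E A, ∃ r' ∈ Rg E A, z = j1 e A * r + j2 e A * r' := by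
  constructor
  · intro h
    obtain ⟨α, hα, β, hβ, h1⟩ := bez (A := A) e
    exact ⟨α * (j1 e A * z), mul_mem (Px_le_Rg E hα) h.1, β * (j2 e A * z),
      mul_mem (Px_le_Rg E hβ) h.2, by linear_combination (-z) * h1⟩
  · rintro ⟨r, hr, r', hr', rfl⟩
    rw [mul_comm _ r, mul_comm _ r']
    exact inJ_add (inJ_mul hr inJ_j1) (inJ_mul hr' inJ_j2)

theorem inJ_mul_inJ {u z : Ls A} (hu : InJ e u) (hz : InJ e z) : u * z ∈ Rg E A := by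
  obtain ⟨r, hr, r', hr', rfl⟩ := inJ_gen.1 hu
  rw [add_mul, mul_right_comm, mul_right_comm _ r']
  exact add_mem (mul_mem hz.1 hr) (mul_mem hz.2 hr')

theorem reg_of_inJ {z : Ls A} (h : ∀ w : Ls A, IsJ e w → InJ e (w * z)) : z ∈ Rg E A := by
  obtain ⟨α, hα, β, hβ, h1⟩ := bez (A := A) e
  rw [show z = α * (j1 e A * (j1 e A * z)) + β * (j2 e A * (j2 e A * z)) by
    linear_combination (-z) * h1]
  exact add_mem (mul_mem (Px_le_Rg E hα) (h _ (Or.inl rfl)).1)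
    (mul_mem (Px_le_Rg E hβ) (h _ (Or.inr rfl)).2)

theorem inJ_smul_mem (hM : Stab (Rg E A) M) {z : Ls A} (hz : InJ e z) {m : Fin N → Ls A}
    (hm : m ∈ M) : z • m ∈ J e M := by
  obtain ⟨r, hr, r', hr', rfl⟩ := inJ_gen.1 hz
  exact ⟨_, hM r hr m hm, _, hM r' hr' m hm, by rw [add_smul, mul_smul, mul_smul]⟩

/-- The module `J` as a submodule. -/
def JS (e : Rt E) (A : Type) [CommRing A] [Algebra ℂ A] : Submodule A (Ls A) where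
  carrier := {z | InJ e z}
  add_mem' := inJ_add
  zero_mem' := inJ_zero
  smul_mem' c _ h := inJ_smul c h

/-! ### The expansion of `y` -/

theorem ord_y_sub (E : Ell) : Ord 1 (E.y - tp ℂ (-3)) := by
  have h1 : (E.y - tp ℂ (-3)) * (E.y + tp ℂ (-3)) = cc ℂ E.a * xs ℂ + cc ℂ E.b := by
    have h := ys_sq (A := ℂ) E
    have h2 : tp ℂ (-3) * tp ℂ (-3) = xs ℂ ^ 3 := by rw [tp_mul, xs_pow]; rfl
    change E.y * E.y = _ at h
    linear_combination h - h2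
  have h2 : Ord (-2) ((E.y - tp ℂ (-3)) * (E.y + tp ℂ (-3))) := by
    rw [h1]
    exact ((Ord.C _).mul_left ord_xs).add ((Ord.C _).mono (by norm_num))
  have h3 : Ord (-3) (E.y + tp ℂ (-3)) := (ord_y E).add (Ord.tp _)
  have h4 : (E.y + tp ℂ (-3)).coeff (-3) = 2 := by
    rw [HahnSeries.coeff_add, E.lead, tp, HahnSeries.coeff_single_same, one_add_one_eq_two]
  have step : ∀ n : ℤ, n < 1 → Ord n (E.y - tp ℂ (-3)) → Ord (n + 1) (E.y - tp ℂ (-3)) :=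
    fun n hn h => ord_succ h (by
      have h5 := coeff_mul_lead h h3
      rw [h2 _ (by omega), h4] at h5
      exact (mul_eq_zero.1 h5.symm).resolve_right two_ne_zero)
  exact step 0 (by norm_num) (step (-1) (by norm_num) (step (-2) (by norm_num)
    (step (-3) (by norm_num) ((ord_y E).sub (Ord.tp _)))))

theorem ord_ys_sub (E : Ell) : Ord 1 (ys E A - tp A (-3)) := by
  have h := (ord_y_sub E).lm (algebraMap ℂ A)
  rwa [map_sub, lm_tp] at h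

theorem ys_coeff_zero (E : Ell) {k : ℤ} (h1 : k ≠ -3) (h2 : k < 1) : (ys E A).coeff k = 0 := by
  have h := ord_ys_sub (A := A) E k h2
  rwa [HahnSeries.coeff_sub, tp, HahnSeries.coeff_single_of_ne h1, sub_zero] at h

end

end Vale.Agent.P286EL
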