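import Vale.Agent.P286EL.Tw
import Vale.Agent.P286EN.Grp

/-!
# The addition formula: translation by the point of order two
-/

set_option linter.all false

namespace Vale.Agent.P286EL

open Matrix Vale.Agent.P286 Vale.Agent.P286E Vale.Agent.P286EN Vale.Agent.P286EB

noncomputable section

attribute [-instance] HahnSeries.powerSeriesAlgebra

variable {A : Type} [CommRing A] [Algebra ℂ A] {N : ℕ} {E : Ell} {e : Rt E}

theorem fv_gv (x : A) : P286EB.fv E x = (x - ea e A) * gv e x := by
  have h := congrArg (algebraMap ℂ A) e.rt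
  simp only [map_add, map_mul, map_pow, map_zero] at h
  rw [P286EB.fv, gv, ea]
  linear_combination h

theorem da_eq : da e A = 3 * ea e A ^ 2 + algebraMap ℂ A E.a := by
  simp only [da, ea, Rt.d, map_add, map_mul, map_pow, map_ofNat]

theorem da_unit : IsUnit (da e A) := (IsUnit.mk0 _ e.d_ne).map _

/-- The relation between a point and its translate. -/
structure Rel (e : Rt E) (p p' w : A) : Prop where
  hw : (p - ea e A) * w = 1
  hp : p' = ea e A + da e A * w

theorem Rel.gv {p p' w : A} (h : Rel e p p' w) : gv e p' = da e A * w ^ 2 * gv e p := by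
  have hw := h.hw
  rw [h.hp, P286EB.gv, P286EB.gv, da_eq]
  linear_combination (-(3 * ea e A ^ 2 + algebraMap ℂ A E.a) *
    (1 + (p - ea e A) * w + 3 * ea e A * w)) * hw

theorem Rel.fv {p p' w : A} (h : Rel e p p' w) :
    P286EB.fv E p' = (-(da e A * w ^ 2)) ^ 2 * P286EB.fv E p := by
  rw [fv_gv (e := e), fv_gv (e := e), h.gv, h.hp]
  linear_combination (-(da e A ^ 2 * w ^ 3 * P286EB.gv e p)) * h.hw

theorem col_qk {M : Submodule A (Fin N → Ls A)} {S S' q k : Matrix (Fin N) (Fin N) (Ls A)}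
    (hq : Ent (Px A) q) (hk : Ent (Px A) k) {a b a' b' : Ls A} (ha : a ∈ Px A) (hb : b ∈ Px A)
    (ha' : a' ∈ Px A) (hb' : b' ∈ Px A) :
    Col (Lat S S') (S * (a • q + b • k) + S' * (a' • q + b' • k)) :=
  ((col_lat_left S S').mul (stab_lat S S') ((hq.smul ha).add (hk.smul hb))).add
    ((col_lat_right S S').mul (stab_lat S S') ((hq.smul ha').add (hk.smul hb')))

/-- The main inclusion. -/
theorem key {p p' w : A} (h : Rel e p p' w) {K Q X X' : Matrix (Fin N) (Fin N) A}
    (hQ : Q * Q = Q) (hKQ : K * Q = K) (hQK : Q * K = K) (hKK : K * K = P286EB.fv E p • Q)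
    (hX : Q * X = p • Q) (hX' : X' * Q = p' • Q) {j : Ls A} (hj : IsJ e j) {m : Fin N → Ls A}
    (hm : m ∈ U E X K) :
    j • (((sI (ea e A) * sI p * sI p') • ((ys E A • 1 +
      ((xs A - HahnSeries.C (ea e A)) * HahnSeries.C (-w)) • cm K) * cm Q)) *ᵥ m) ∈
      U E X' ((-(da e A * w ^ 2)) • K) := by
  have e1 : cm Q * cm Q = cm Q := by rw [← cm_mul, hQ]
  have e2 : cm K * cm Q = cm K := by rw [← cm_mul, hKQ]
  have e3 : cm Q * cm K = cm K := by rw [← cm_mul, hQK]
  have e4 : cm K * cm K = (HahnSeries.C (P286EB.fv E p) : Ls A) • cm Q := by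
    rw [← cm_mul, hKK, cm_smul]
  have hX1 : Q * X = (p • 1) * Q := by rw [hX, smul_mul_assoc, one_mul]
  have r1 : cm Q * rho X = sr p • cm Q := by
    rw [rho_inter hX1, rho_scalar, smul_mul_assoc, one_mul]
  have r2 : cm Q * sig E X K = sI p • (ys E A • cm Q + cm K) := by
    rw [sig_inter E hX1 (hQK.trans hKQ.symm), sig, rhoI_scalar, mul_smul_comm, mul_one,
      smul_mul_assoc, add_mul, smul_mul_assoc, one_mul, e2]
  have r3 : rho X' * cm Q = sr p' • cm Q := rho_mul_of hX'
  have r4 : rho X' * cm K = sr p' • cm K := by rw [← e3, ← mul_assoc, r3, smul_mul_assoc]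
  have r5 : sig E X' ((-(da e A * w ^ 2)) • K) * cm Q = sI p' • (ys E A • cm Q +
      (HahnSeries.C (-(da e A * w ^ 2)) : Ls A) • cm K) := by
    rw [sig, mul_assoc, rhoI_mul_of hX', mul_smul_comm, add_mul, smul_mul_assoc, one_mul, cm_smul,
      smul_mul_assoc, e2]
  have r6 : sig E X' ((-(da e A * w ^ 2)) • K) * cm K = sI p' • (ys E A • cm K +
      (HahnSeries.C (-(da e A * w ^ 2)) * HahnSeries.C (P286EB.fv E p) : Ls A) • cm Q) := by
    rw [← e3, ← mul_assoc, r5, smul_mul_assoc, add_mul, smul_mul_assoc, smul_mul_assoc, e3, e4,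
      smul_smul]
  have hw := congrArg (HahnSeries.C : A →+* Ls A) h.hw
  have hp := congrArg (HahnSeries.C : A →+* Ls A) h.hp
  have hf := congrArg (HahnSeries.C : A →+* Ls A) (fv_gv (e := e) p)
  have hd := congrArg (HahnSeries.C : A →+* Ls A) (da_eq (e := e) (A := A))
  have hy := yy (A := A) e
  have a0 := sr_mul_sI (ea e A)
  have a1 := sr_mul_sI p
  have t0 := sI_sq (ea e A)
  have t1 := sI_sq p
  have t2 : sr p' = sI p' * (xs A - HahnSeries.C p') := by
    rw [← sr_mul_sr, ← mul_assoc, sI_mul_sr, one_mul]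
  have mx := xs_mem_Px (A := A)
  have mp := C_mem_Px p
  have mp' := C_mem_Px p'
  have me := C_mem_Px (ea e A)
  have mw := (Px A).neg_mem (C_mem_Px w)
  have m0 := (Px A).zero_mem
  have m1 := (Px A).one_mem
  have cq := fun {a b a' b' : Ls A} => col_qk (M := ⊤) (S := rho X')
    (S' := sig E X' ((-(da e A * w ^ 2)) • K)) (a := a) (b := b) (a' := a') (b' := b') (ent_cm Q)
    (ent_cm K)
  simp only [mul_add, mul_smul_comm, r3, r4, r5, r6] at cq
  simp only [gv, gx, cc, ← ea.eq_1, map_mul, map_sub, map_add, map_pow, map_one, map_neg,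
    map_ofNat] at hw hp hf hd hy cq
  obtain ⟨u, v, hu, hv, rfl⟩ := hm
  rw [← smul_mulVec, mulVec_add, mulVec_mulVec, mulVec_mulVec, smul_mul_assoc, smul_mul_assoc,
    smul_mul_assoc, smul_mul_assoc, mul_assoc, mul_assoc, r1, mul_assoc _ (cm Q), r2, map_neg]
  simp only [add_mul, mul_add, smul_mul_assoc, mul_smul_comm, one_mul, e2, e4]
  rw [t2] at cq
  rw [IsJ, j1_eq, j2_eq] at hj
  generalize (HahnSeries.C (P286EB.fv E p) : Ls A) = f at *
  generalize (HahnSeries.C (da e A) : Ls A) = D at *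
  generalize (HahnSeries.C p' : Ls A) = P' at *
  generalize (HahnSeries.C p : Ls A) = P at *
  generalize (HahnSeries.C w : Ls A) = W at *
  generalize (HahnSeries.C (ea e A) : Ls A) = ε at *
  generalize (HahnSeries.C (algebraMap ℂ A E.a) : Ls A) = a at *
  generalize sI (ea e A) = i at *
  generalize sr (ea e A) = s at *
  generalize sI p = i1 at *
  generalize sr p = s1 at *
  generalize xs A = x at *
  have hG : W * (P ^ 2 + ε * P + (ε ^ 2 + a)) = P + P' + ε := by
    rw [hp, hd]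
    linear_combination (P + 2 * ε) * hw
  have hF : W * f = P ^ 2 + ε * P + (ε ^ 2 + a) := by
    rw [hf]
    linear_combination (P ^ 2 + ε * P + (ε ^ 2 + a)) * hw
  have E1 : i1 * i1 * (ys E A * ys E A - (x - ε) * W * f) = (x - ε) * (x + P + ε) := by
    linear_combination i1 * i1 * hy - i1 * i1 * (x - ε) * hF + (x - ε) * (x + P + ε) * t1
  have E2 : i1 * i1 * (ys E A - (x - ε) * W * ys E A) = -(ys E A * W) := by
    linear_combination (-(i1 * i1 * ys E A)) * hw - ys E A * W * t1
  have hs := stab_lat (rho X') (sig E X' ((-(da e A * w ^ 2)) • K))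
  generalize sI p' = i2 at *
  have G2 : D * W * (P + P' + ε) = P' ^ 2 + ε * P' + (ε ^ 2 + a) := by
    rw [hp]
    linear_combination D * hw + hd
  have G3 : (x - P') * (x + ε + ε) + D * W * (x + P + ε) = x ^ 2 + ε * x + (ε ^ 2 + a) := by
    rw [hp]
    linear_combination D * hw + hd
  have hy' : i * i * (ys E A * ys E A) = x ^ 2 + ε * x + (ε ^ 2 + a) := by
    linear_combination i * i * hy + (x ^ 2 + ε * x + (ε ^ 2 + a)) * t0
  rcases hj with rfl | rfl
  · refine add_mem (Col.mulVec hs (((congrArg (Col _) ?_).mp (cq m0 mw m1 m0))) hu)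
      (Col.mulVec hs (((congrArg (Col _) ?_).mp
        (cq (add_mem (add_mem mx mp) mp') m0 m0 mw))) hv)
    · match_scalars
      · linear_combination (-(i2 * ys E A)) * (i1 * s1 * a0 + a1)
      · linear_combination (i2 * (x - ε) * W) * (i1 * s1 * a0 + a1) + i2 * W * hp
    · match_scalars
      · linear_combination (-(i2 * i1 * i1 * (ys E A * ys E A - (x - ε) * W * f))) * a0 -
          i2 * E1 + i2 * D * W ^ 2 * hF + i2 * D * W * hG - i2 * (P + P' + ε) * hp
      · linear_combination (-(i2 * i1 * i1 * (ys E A - (x - ε) * W * ys E A))) * a0 - i2 * E2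
  · refine add_mem (Col.mulVec hs (((congrArg (Col _) ?_).mp
        (cq (add_mem (add_mem mx mp') me) m0 m0 mw))) hu)
      (Col.mulVec hs (((congrArg (Col _) ?_).mp
        (cq m0 (mul_mem mw (add_mem (add_mem mx me) me)) (add_mem (add_mem mx mp) me) m0))) hv)
    · match_scalars
      · linear_combination (-(i2 * i * i * ys E A * ys E A)) * a1 - i2 * hy' +
          i2 * D * W ^ 2 * hF + i2 * D * W * hG + i2 * G2
      · linear_combination (i2 * i * i * ys E A * (x - ε) * W) * a1 + i2 * ys E A * W * t0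
    · match_scalars
      · linear_combination (-(i2 * i * i * ys E A)) * E1 - i2 * ys E A * (x + P + ε) * t0
      · linear_combination (-(i2 * i * i * ys E A)) * E2 + i2 * W * hy' - i2 * W * G3

/-- A projector `π` and an operator `K` on the complement with `K² = f(p)`. -/
structure Pk (E : Ell) (p : A) (π K : Matrix (Fin N) (Fin N) A) : Prop where
  pp : π * π = π
  kp : K * π = 0
  pk : π * K = 0
  kk : K * K = P286EB.fv E p • (1 - π)

/-- The matrix `e π + p (1 - π)`. -/
def Xp (e : Rt E) (p : A) (π : Matrix (Fin N) (Fin N) A) : Matrix (Fin N) (Fin N) A :=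
  ea e A • π + p • (1 - π)

namespace Pk

variable {p p' w : A} {π K K' : Matrix (Fin N) (Fin N) A}

theorem pq (h : Pk E p π K) : π * (1 - π) = 0 := by rw [mul_sub, mul_one, h.pp, sub_self]

theorem qp (h : Pk E p π K) : (1 - π) * π = 0 := by rw [sub_mul, one_mul, h.pp, sub_self]

theorem qq (h : Pk E p π K) : (1 - π) * (1 - π) = 1 - π := by rw [mul_sub, mul_one, h.qp, sub_zero]

theorem kq (h : Pk E p π K) : K * (1 - π) = K := by rw [mul_sub, mul_one, h.kp, sub_zero]

theorem qk (h : Pk E p π K) : (1 - π) * K = K := by rw [sub_mul, one_mul, h.pk, sub_zero]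

theorem qX (h : Pk E p π K) (r : A) : (1 - π) * Xp e r π = r • (1 - π) := by
  rw [Xp, mul_add, mul_smul_comm, mul_smul_comm, h.qp, h.qq, smul_zero, zero_add]

theorem Xq (h : Pk E p π K) (r : A) : Xp e r π * (1 - π) = r • (1 - π) := by
  rw [Xp, add_mul, smul_mul_assoc, smul_mul_assoc, h.pq, h.qq, smul_zero, zero_add]

theorem pX (h : Pk E p π K) (r : A) : π * Xp e r π = ea e A • π := by
  rw [Xp, mul_add, mul_smul_comm, mul_smul_comm, h.pq, h.pp, smul_zero, add_zero]

theorem Xp' (h : Pk E p π K) (r : A) : Xp e r π * π = ea e A • π := by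
  rw [Xp, add_mul, smul_mul_assoc, smul_mul_assoc, h.qp, h.pp, smul_zero, add_zero]

theorem mpt (h : Pk E p π K) : MPt E (Xp e p π) K := by
  have h1 : ∀ r s : A, Xp e p π * (r • π + s • (1 - π)) = (r * ea e A) • π + (s * p) • (1 - π) :=
    fun r s => by rw [mul_add, mul_smul_comm, mul_smul_comm, h.Xp', h.Xq, smul_smul, smul_smul]
  refine ⟨?_, ?_⟩
  · rw [Xp, add_mul, mul_add, smul_mul_assoc, smul_mul_assoc, mul_smul_comm, mul_smul_comm, h.pk,
      h.kp, h.qk, h.kq]
  · have h2 := congrArg (algebraMap ℂ A) e.rt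
    simp only [map_add, map_mul, map_pow, map_zero] at h2
    have h3 : Xp e p π ^ 3 = (ea e A * ea e A * ea e A) • π + (p * p * p) • (1 - π) := by
      rw [pow_three, ← h1, ← h1]
      rfl
    rw [h.kk, h3, ← algebraMap_smul A E.a, ← algebraMap_smul A E.b, Xp, P286EB.fv, ea]
    match_scalars
    · ring
    · linear_combination (-1) * h2

theorem smul (h : Pk E p π K) (r : Rel e p p' w) : Pk E p' π ((-(da e A * w ^ 2)) • K) :=
  ⟨h.pp, by rw [smul_mul_assoc, h.kp, smul_zero], by rw [mul_smul_comm, h.pk, smul_zero], by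
    rw [smul_mul_smul_comm, h.kk, smul_smul, r.fv, pow_two (-_)]⟩

theorem pi_mem (h : Pk E p π K) (h' : Pk E p' π K') {m : Fin N → Ls A}
    (hm : m ∈ U E (Xp e p π) K) : cm π *ᵥ m ∈ U E (Xp e p' π) K' :=
  cm_mem_U (by rw [h.pX, h.Xp']) (by rw [h.pk, h'.kp]) hm

end Pk

/-- The comparison matrix. -/
def Tm (e : Rt E) (p p' w : A) (π K : Matrix (Fin N) (Fin N) A) : Matrix (Fin N) (Fin N) (Ls A) :=
  cm π + (sI (ea e A) * sI p * sI p') • ((ys E A • 1 +
    ((xs A - HahnSeries.C (ea e A)) * HahnSeries.C w) • cm K) * (1 - cm π))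

variable {p p' w : A} {π K : Matrix (Fin N) (Fin N) A}

theorem lead_Tm (p p' w : A) (π K : Matrix (Fin N) (Fin N) A) : Lead 0 (Tm e p p' w π K) 1 := by
  have h1 : Ord (1 + 1) (sI (ea e A) * sI p) := (ord_sI _).mul' (ord_sI _)
  have h2 : (sI (ea e A) * sI p * sI p').coeff (1 + 1 + 1) = 1 := by
    rw [coeff_mul_lead h1 (ord_sI _), coeff_mul_lead (ord_sI _) (ord_sI _), coeff_sI, coeff_sI,
      coeff_sI, one_mul, one_mul]
  have h3 : Lead (-3) (ys E A • 1 + ((xs A - HahnSeries.C (ea e A)) * HahnSeries.C w) • cm K) 1 :=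
    (lead_ys lead_one).add_ord (OrdM.smul (a := -2 + 0) (b := 0)
      ((ord_xs.sub ((Ord.C _).mono (by norm_num))).mul' (Ord.C w)) (lead_cm K).ord)
  have h4 := Lead.smul (h1.mul' (ord_sI p')) h2 (h3.mul (lead_cm (1 - π)))
  rw [cm_sub, cm_one, one_mul] at h4
  refine ⟨(lead_cm π).ord.add h4.ord, fun i j => ?_⟩
  have h5 := h4.2 i j
  rw [show (1 + 1 + 1 + (-3 + 0) : ℤ) = 0 from rfl] at h5
  rw [Tm, Matrix.add_apply, HahnSeries.coeff_add, (lead_cm π).2, h5, Matrix.sub_apply,
    add_sub_cancel]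

theorem Tm_eq (h : Pk E p π K) (r r' w : A) : Tm e r r' w π K = cm π +
    (sI (ea e A) * sI r * sI r') • (ys E A • cm (1 - π) +
      ((xs A - HahnSeries.C (ea e A)) * HahnSeries.C w) • cm K) := by
  rw [Tm, ← cm_one, ← cm_sub, cm_one, add_mul, smul_mul_assoc, smul_mul_assoc, one_mul, ← cm_mul,
    h.kq]

theorem Tm_mul (h : Pk E p π K) (r : Rel e p p' w) :
    Tm e p' p w π K * Tm e p p' (-w) π K = 1 := by
  have hw := congrArg (HahnSeries.C : A →+* Ls A) r.hw
  have hp := congrArg (HahnSeries.C : A →+* Ls A) r.hp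
  have hf := congrArg (HahnSeries.C : A →+* Ls A) (fv_gv (e := e) p)
  have hd := congrArg (HahnSeries.C : A →+* Ls A) (da_eq (e := e) (A := A))
  have hy := yy (A := A) e
  have t0 := sI_sq (ea e A)
  have t1 := sI_sq p
  have t2 := sI_sq p'
  simp only [gv, gx, cc, ← ea.eq_1, map_mul, map_sub, map_add, map_pow, map_one, map_neg,
    map_ofNat] at hw hp hf hd hy
  have h1 : (1 : Matrix (Fin N) (Fin N) (Ls A)) = cm π + cm (1 - π) := by
    rw [← cm_add, add_sub_cancel, cm_one]
  rw [Tm_eq h, Tm_eq h, h1, map_neg]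
  simp only [add_mul, mul_add, smul_mul_assoc, mul_smul_comm, ← cm_mul, h.pp, h.pq, h.qp, h.qq,
    h.kq, h.qk, h.kp, h.pk, h.kk, cm_zero, smul_zero, add_zero, zero_add, cm_smul]
  generalize (HahnSeries.C (P286EB.fv E p) : Ls A) = f at *
  generalize (HahnSeries.C (da e A) : Ls A) = D at *
  generalize (HahnSeries.C p' : Ls A) = P' at *
  generalize (HahnSeries.C p : Ls A) = P at *
  generalize (HahnSeries.C w : Ls A) = W at *
  generalize (HahnSeries.C (ea e A) : Ls A) = ε at *
  generalize (HahnSeries.C (algebraMap ℂ A E.a) : Ls A) = a at *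
  generalize xs A = x at *
  have h2 : ys E A * ys E A - (x - ε) ^ 2 * W ^ 2 * f = (x - ε) * (x - P) * (x - P') := by
    rw [hy, hf, hp, hd]
    linear_combination (-(x - ε) * ((x - ε) * W * (P ^ 2 + ε * P + (ε ^ 2 + a)) +
      (x - ε) * (P + 2 * ε) + (3 * ε ^ 2 + a))) * hw
  match_scalars
  · ring
  · linear_combination (sI (ea e A) * sI p * sI p') ^ 2 * h2 + (sI p * sI p * (x - P)) *
      (sI p' * sI p' * (x - P')) * t0 + (sI p' * sI p' * (x - P')) * t1 + t2
  · ring

theorem tm_adj {F : Matrix (Fin N) (Fin N) A} (h : Pk E p π K) (h1 : πᵀ * F = F * π)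
    (h2 : Kᵀ * F = -(F * K)) (r r' w : A) :
    (Tm e r r' w π K)ᵀ * cm F = cm F * Tm e r' r (-w) π K := by
  have h3 : (1 - π)ᵀ * F = F * (1 - π) := by
    rw [transpose_sub, transpose_one, sub_mul, mul_sub, h1, one_mul, mul_one]
  rw [Tm_eq h, Tm_eq h, map_neg]
  simp only [transpose_add, transpose_smul, cm_transpose, add_mul, mul_add, smul_mul_assoc,
    mul_smul_comm, ← cm_mul, h1, h2, h3, cm_neg]
  module

theorem tm_lat (h : Pk E p π K) (r : Rel e p p' w) :
    (tw e 1 (U E (Xp e p' π) ((-(da e A * w ^ 2)) • K))).map (act (Tm e p' p w π K)) =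
      tw e (cm π) (U E (Xp e p π) K) := by
  have h' := h.smul r
  obtain ⟨δ, hδ⟩ := (da_unit (e := e) (A := A)).exists_right_inv
  have r' : Rel e p' p ((p - ea e A) * δ) :=
    ⟨by rw [r.hp]; linear_combination (da e A * δ) * r.hw + hδ, by
      linear_combination (-(p - ea e A)) * hδ⟩
  have e1 : cm π * cm π = cm π := by rw [← cm_mul, h.pp]
  have e0 : cm (1 - π) = 1 - cm π := by rw [cm_sub, cm_one]
  have c1 : ∀ (r r' w : A), cm π * Tm e r r' w π K = cm π := fun r r' w => by
    rw [Tm_eq h, mul_add, mul_smul_comm, mul_add, mul_smul_comm, mul_smul_comm, e1, ← cm_mul,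
      ← cm_mul, h.pq, h.pk, cm_zero, smul_zero, smul_zero, add_zero, smul_zero, add_zero]
  rw [tw_one (stab_U h'.mpt)]
  refine le_antisymm (Submodule.map_le_iff_le_comap.2 (J_le.2 fun j hj m hm => ?_)) fun m hm => ?_
  · have k1 := key r' h'.qq h'.kq h'.qk h'.kk (h.qX (e := e) p') (h.Xq (e := e) p) hj hm
    have k2 : -(da e A * ((p - ea e A) * δ) ^ 2) * -(da e A * w ^ 2) = 1 := by
      linear_combination (da e A * δ) ^ 2 * ((p - ea e A) * w + 1) * r.hw + (da e A * δ + 1) * hδ
    have k3 : -((p - ea e A) * δ) * -(da e A * w ^ 2) = w := by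
      linear_combination (da e A * δ * w) * r.hw + w * hδ
    rw [smul_smul, k2, one_smul, cm_smul, smul_smul, mul_assoc _ (HahnSeries.C _),
      ← map_mul HahnSeries.C, k3, e0] at k1
    rw [Submodule.mem_comap, act_apply, mem_tw_J (stab_U h.mpt), mulVec_mulVec, c1, mulVec_smul,
      mulVec_smul, Tm, add_mulVec, smul_add, add_sub_cancel_left]
    exact ⟨k1, hj.mem (h'.pi_mem h hm)⟩
  · refine ⟨Tm e p p' (-w) π K *ᵥ m, mem_J_of (stab_U h'.mpt).px fun j hj => ?_, by
      rw [act_apply, mulVec_mulVec, Tm_mul h r, one_mulVec]⟩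
    rw [mem_tw'] at hm
    have k1 := key r h.qq h.kq h.qk h.kk (h.qX (e := e) p) (h.Xq (e := e) p') hj hm.1
    have k2 := h.pi_mem h' (hm.2 j hj)
    have k3 : (1 - cm π) *ᵥ (m - cm π *ᵥ m) = (1 - cm π) *ᵥ m := by
      rw [sub_mulVec, sub_mulVec, one_mulVec, one_mulVec, pi_sub e1, sub_zero]
    rw [mulVec_smul, pi_pi e1] at k2
    rw [e0, smul_mulVec, ← mulVec_mulVec, k3, mulVec_mulVec, ← smul_mulVec _ _ m] at k1
    rw [Tm, add_mulVec, smul_add]
    exact add_mem k2 k1

theorem prj_two {ξ : Fin 3 → A} {π : Matrix (Fin 2) (Fin 2) A} (h : Prj SL2 ξ π) : π = 0 := by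
  obtain ⟨c, rfl⟩ : ∃ c : A, π = c • 1 := ⟨_, sl2_scalar h.adj⟩
  have h2 : trace (c • (1 : Matrix (Fin 2) (Fin 2) A)) = ((2 : ℕ) : A) - 2 := h.tr
  rw [trace_smul, trace_one, Fintype.card_fin, smul_eq_mul, Nat.cast_ofNat, sub_self,
    mul_comm] at h2
  rw [two_mul_eq_zero (algebraMap ℂ A) h2, zero_smul]

theorem pk_of {G : Grp} (hG : G = SL2 ∨ G = SO3) {ξ : Fin 3 → A}
    {π : Matrix (Fin G.N) (Fin G.N) A} (hs : ξ ⬝ᵥ ξ = P286EB.fv E p) (h : Prj G ξ π) :
    Pk E p π (G.ht ξ) := by
  rcases hG with rfl | rfl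
  · have h3 : π = 0 := prj_two h
    subst h3
    exact ⟨mul_zero _, mul_zero _, zero_mul _, by rw [sub_zero, ← hs]; exact pm_sq _ ξ⟩
  · have key : ∀ π : Matrix (Fin 3) (Fin 3) A, πᵀ = π → trace π = 1 → Rk1 π → h3 ξ * π = 0 →
        Pk E p π (h3 ξ) := fun π h1 h2 h4 h5 => by
      have h6 : π * π = π := Matrix.ext fun i j => by
        rw [Matrix.mul_apply, Finset.sum_congr rfl fun k _ => h4 i k k j, ← Finset.mul_sum]
        exact (congrArg (π i j * ·) h2).trans (mul_one _)
      have h7 : π * h3 ξ = 0 := by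
        have := congrArg transpose h5
        rwa [transpose_mul, h1, h3_skew, mul_neg, transpose_zero, neg_eq_zero] at this
      refine ⟨h6, h5, h7, ?_⟩
      have h8 : ∀ j, ξ ⨯₃ (fun i => π i j) = 0 := fun j => by
        have h9 : h3 ξ *ᵥ (fun i => π i j) = 0 := funext fun i => congrFun (congrFun h5 i) j
        have h10 := congrArg (fun v => (-algebraMap ℂ A Complex.I) • v) h9
        rwa [rm_mulVec, smul_smul, neg_mul, iota_I, neg_neg, one_smul, smul_zero] at h10
      have h11 : π *ᵥ ξ = ξ := by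
        have a0 := h8 0
        have a1 := h8 1
        have a2 := h8 2
        have s1 : π 1 0 = π 0 1 := congrFun (congrFun h1 0) 1
        have s2 : π 2 0 = π 0 2 := congrFun (congrFun h1 0) 2
        have s3 : π 2 1 = π 1 2 := congrFun (congrFun h1 1) 2
        rw [trace_fin_three] at h2
        rw [cross_apply] at a0 a1 a2
        have b1 := congrFun a1 2
        have b2 := congrFun a2 1
        have b3 := congrFun a0 2
        have b4 := congrFun a2 0
        have b5 := congrFun a0 1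
        have b6 := congrFun a1 0
        simp only [cons_val_zero, cons_val_one, cons_val, Pi.zero_apply] at b1 b2 b3 b4 b5 b6
        ext i
        fin_cases i <;> simp only [mulVec, dotProduct, Fin.sum_univ_three, Fin.zero_eta,
          Fin.mk_one, Fin.reduceFinMk]
        · linear_combination ξ 0 * h2 - b1 + b2
        · linear_combination ξ 1 * h2 + b3 - b4
        · linear_combination ξ 2 * h2 - b5 + b6
      have h12 : h3 ξ * h3 ξ * π = 0 := by rw [mul_assoc, h5, mul_zero]
      have h13 : vecMulVec ξ ξ * π = vecMulVec ξ ξ := by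
        rw [vecMulVec_mul, ← h1, vecMul_transpose, h11]
      rw [rm_sq, sub_mul, h13, smul_mul_assoc, one_mul, sub_eq_zero] at h12
      rw [rm_sq, ← hs, smul_sub, h12]
    have h1 := h.adj
    rw [F_SO3] at h1
    exact key π ((mul_one _).symm.trans (h1.trans (one_mul _))) (h.tr.trans (by
      change ((3 : ℕ) : A) - 2 = 1
      norm_num)) h.rk h.ker

theorem trn : TRN := fun E e G hG A _ _ x ξ π h => by
  have hk := pk_of hG h.sq (h.pr (by decide))
  have hu := h.un rfl
  rw [fv_gv (e := e)] at hu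
  have r : Rel e x (kx e .b .n x) (Ring.inverse (x - ea e A)) :=
    ⟨Ring.mul_inverse_cancel _ (isUnit_of_mul_isUnit_left hu), rfl⟩
  have hg : IsUnit (gv e (kx e .b .n x)) := by
    rw [r.gv]
    exact (da_unit.mul ((IsUnit.of_mul_eq_one_right _ r.hw).pow 2)).mul
      (isUnit_of_mul_isUnit_right hu)
  have hc : G.ht (kc e .b .n x • ξ) = kc e .b .n x • G.ht ξ := by
    simp only [Grp.ht, Pi.smul_apply, smul_eq_mul, mul_smul, Finset.smul_sum]
  have hf : (P286EB.trn e G .b .n x ξ π)ᵀ * cst A G.F * P286EB.trn e G .b .n x ξ π = cst A G.F := by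
    have h1 := tm_adj (e := e) hk (h.pr (by decide)).adj (ht_skew (Grp.ok_of hG) ξ)
      (kx e .b .n x) x (Ring.inverse (x - ea e A))
    exact (congrArg (· * _) h1).trans (by
      rw [mul_assoc]
      exact (congrArg (_ * ·) (mul_eq_one_comm.1 (Tm_mul hk r))).trans (mul_one _))
  have hl := lead_Tm (e := e) (kx e .b .n x) x (Ring.inverse (x - ea e A)) π (G.ht ξ)
  refine ⟨⟨?_, fun _ => ⟨hg, rfl⟩, nofun, fun h => absurd rfl h⟩,
    ⟨det_eq_one hl (det_F (Grp.ok_of hG)) hf, hf⟩, hl.ord, ?_⟩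
  · rw [smul_dotProduct, dotProduct_smul, h.sq, r.fv, smul_smul, smul_eq_mul, pow_two]
    rfl
  · have hX : Xm e G .b (kx e .b .n x) (kc e .b .n x • ξ) 1 = Xp e (kx e .b .n x) π := by
      have h1 := (hk.smul r).kk
      rw [Xm, hc]
      refine (congrArg (fun z => _ + _ • z) h1).trans ?_
      rw [fv_gv (e := e), smul_smul, mul_left_comm, Ring.inverse_mul_cancel _ hg, mul_one, Xp]
      module
    rw [FM, hX, hc, cm_one]
    exact tm_lat hk r

end

end Vale.Agent.P286EL
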