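import Vale.Agent.P286EN.Adj
import Vale.Agent.P286EF.Ob
import Vale.Agent.P286EB.IF

/-!
# The tensor product with the line bundle of order two defined by a root of the cubic
-/

set_option linter.all false

namespace Vale.Agent.P286EL

open Matrix Vale.Agent.P286 Vale.Agent.P286E Vale.Agent.P286EN Vale.Agent.P286EB

noncomputable section

attribute [-instance] HahnSeries.powerSeriesAlgebra

variable {A B : Type} [CommRing A] [Algebra ℂ A] [CommRing B] [Algebra ℂ B] {N : ℕ}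

/-! ### Scalar square roots -/

theorem of_const (p : A) : (of fun _ _ => p : Matrix (Fin 1) (Fin 1) A) = p • 1 := by
  ext i j
  rw [Subsingleton.elim i j, Matrix.smul_apply, one_apply_eq, smul_eq_mul, mul_one, of_apply]

theorem Ps_scalar (p : A) (g : PowerSeries ℂ) :
    Ps (-(p • (1 : Matrix (Fin N) (Fin N) A))) g =
      Ps (-(p • (1 : Matrix (Fin 1) (Fin 1) A))) g 0 0 • (1 : Matrix (Fin N) (Fin N) (Ls A)) := by
  ext1 i j
  rw [Ps_apply, Ps_apply, Matrix.smul_apply, smul_eq_mul]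
  simp only [← neg_smul, smul_pow, one_pow, Matrix.smul_apply, one_apply_eq]
  by_cases h : i = j
  · subst h
    rw [one_apply_eq, one_apply_eq, mul_one]
  · rw [one_apply_ne h, one_apply_ne h, mul_zero, ← map_zero (e2 A)]
    congr 1
    ext k
    simp

theorem rho_scalar (p : A) : rho (p • (1 : Matrix (Fin N) (Fin N) A)) = sr p • 1 := by
  rw [sr, of_const, rho, rho, Ps_scalar, smul_smul]
  rfl

theorem rhoI_scalar (p : A) : rhoI (p • (1 : Matrix (Fin N) (Fin N) A)) = sI p • 1 := by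
  rw [sI, of_const, rhoI, rhoI, Ps_scalar, smul_smul]
  rfl

theorem one_inj {u w : Ls A} (h : u • (1 : Matrix (Fin 1) (Fin 1) (Ls A)) = w • 1) : u = w := by
  have := congrFun (congrFun h 0) 0
  simpa using this

theorem sr_mul_sI (p : A) : sr p * sI p = 1 := one_inj (by
  have h := rho_mul_rhoI (p • (1 : Matrix (Fin 1) (Fin 1) A))
  rw [rho_scalar, rhoI_scalar, smul_mul_smul_comm, mul_one] at h
  rw [h, one_smul])

theorem sI_mul_sr (p : A) : sI p * sr p = 1 := by rw [mul_comm, sr_mul_sI]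

theorem sr_mul_sr (p : A) : sr p * sr p = xs A - HahnSeries.C p := one_inj (by
  rw [sub_smul, ← cm_one, ← cm_smul, cm_one, ← rho_mul_rho, rho_scalar, smul_mul_smul_comm, mul_one])

theorem sI_sq (p : A) : sI p * sI p * (xs A - HahnSeries.C p) = 1 := by
  linear_combination (-sI p * sI p) * sr_mul_sr p + (sr p * sI p + 1) * sr_mul_sI p

theorem ord_sr (p : A) : Ord (-1) (sr p) := (lead_rho _).1 0 0

theorem coeff_sr (p : A) : (sr p).coeff (-1) = 1 := ((lead_rho _).2 0 0).trans (one_apply_eq 0)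

theorem ord_sI (p : A) : Ord 1 (sI p) := (lead_rhoI _).1 0 0

theorem coeff_sI (p : A) : (sI p).coeff 1 = 1 := ((lead_rhoI _).2 0 0).trans (one_apply_eq 0)

theorem map_scalar (f : A →ₐ[ℂ] B) (p : A) :
    (p • (1 : Matrix (Fin N) (Fin N) A)).map f = f p • 1 := by
  rw [P286E.map_smul', Matrix.map_one _ (map_zero f) (map_one f)]

theorem lm_sr (f : A →ₐ[ℂ] B) (p : A) : lm (f : A →+* B) (sr p) = sr (f p) := by
  rw [sr, sr, of_const, of_const, ← map_scalar, ← rho_map]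
  rfl

theorem lm_sI (f : A →ₐ[ℂ] B) (p : A) : lm (f : A →+* B) (sI p) = sI (f p) := by
  rw [sI, sI, of_const, of_const, ← map_scalar, ← rhoI_map]
  rfl

/-- An intertwiner from a scalar matrix. -/
theorem rho_mul_of {X H : Matrix (Fin N) (Fin N) A} {p : A} (h : X * H = p • H) :
    rho X * cm H = sr p • cm H := by
  rw [← rho_inter (X := p • 1) (by rw [h, mul_smul_comm, mul_one]), rho_scalar, mul_smul_comm,
    mul_one]

theorem rhoI_mul_of {X H : Matrix (Fin N) (Fin N) A} {p : A} (h : X * H = p • H) :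
    rhoI X * cm H = sI p • cm H := by
  rw [← rhoI_inter (X := p • 1) (by rw [h, mul_smul_comm, mul_one]), rhoI_scalar, mul_smul_comm,
    mul_one]

/-! ### The two generators -/

variable {E : Ell} (e : Rt E)

/-- The first generator `s = (x - e)^(1/2)`. -/
def j1 (A : Type) [CommRing A] [Algebra ℂ A] : Ls A := sr (ea e A)

/-- The inverse of `s`. -/
def ji (A : Type) [CommRing A] [Algebra ℂ A] : Ls A := sI (ea e A)

/-- The second generator `y / s`. -/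
def j2 (A : Type) [CommRing A] [Algebra ℂ A] : Ls A := ys E A * ji e A

/-- The function `g(x) = f(x) / (x - e)`. -/
def gx (A : Type) [CommRing A] [Algebra ℂ A] : Ls A :=
  xs A ^ 2 + cc A e.e * xs A + (cc A e.e ^ 2 + cc A E.a)

theorem j1_eq : j1 e A = sr (ea e A) := rfl

theorem j2_eq : j2 e A = ys E A * sI (ea e A) := rfl

theorem cc_e : cc A e.e = HahnSeries.C (ea e A) := rfl

theorem cc_eq (c : ℂ) : cc A c = (HahnSeries.C.comp (algebraMap ℂ A) : ℂ →+* Ls A) c := rfl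

theorem cc_b : cc A E.b = -(cc A e.e ^ 3 + cc A E.a * cc A e.e) := by
  have h : E.b = -(e.e ^ 3 + E.a * e.e) := by linear_combination e.rt
  simp only [cc_eq, h, map_neg, map_add, map_pow, map_mul]

theorem cc_d : cc A e.d = 3 * cc A e.e ^ 2 + cc A E.a := by
  simp only [cc_eq, Rt.d, map_add, map_pow, map_mul, map_ofNat]

theorem cc_di : cc A e.d⁻¹ * cc A e.d = 1 := by
  rw [cc_eq, cc_eq, ← map_mul, inv_mul_cancel₀ e.d_ne, map_one]

theorem j1_ji : j1 e A * ji e A = 1 := sr_mul_sI _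

theorem j1_j1 : j1 e A * j1 e A = xs A - cc A e.e := sr_mul_sr _

theorem yy : ys E A * ys E A = (xs A - cc A e.e) * gx e A := by
  rw [ys_sq, cc_b e, gx]
  ring

theorem j1_j2 : j1 e A * j2 e A = ys E A := by
  rw [j2]
  linear_combination ys E A * j1_ji (A := A) e

theorem j2_j2 : j2 e A * j2 e A = gx e A := by
  rw [j2]
  linear_combination ji e A ^ 2 * yy (A := A) e - ji e A ^ 2 * gx e A * j1_j1 (A := A) e +
    gx e A * (j1 e A * ji e A + 1) * j1_ji (A := A) e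

theorem gx_mem : gx e A ∈ Px A :=
  (Px A).add_mem ((Px A).add_mem ((Px A).pow_mem xs_mem_Px 2) ((Px A).mul_mem (cc_mem _) xs_mem_Px))
    ((Px A).add_mem ((Px A).pow_mem (cc_mem _) 2) (cc_mem _))

theorem xe_mem (c : ℂ) : xs A - cc A c ∈ Px A := (Px A).sub_mem xs_mem_Px (cc_mem _)

theorem bez : ∃ α ∈ Px A, ∃ β ∈ Px A, α * (j1 e A * j1 e A) + β * (j2 e A * j2 e A) = 1 :=
  ⟨-(cc A e.d⁻¹ * (xs A + cc A e.e + cc A e.e)), (Px A).neg_mem ((Px A).mul_mem (cc_mem _)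
    ((Px A).add_mem ((Px A).add_mem xs_mem_Px (cc_mem _)) (cc_mem _))), cc A e.d⁻¹, cc_mem _, by
    rw [j1_j1, j2_j2, gx, ← cc_di (A := A) e, cc_d]
    ring⟩

theorem lm_j1 (f : A →ₐ[ℂ] B) : lm (f : A →+* B) (j1 e A) = j1 e B := by
  rw [j1, lm_sr, ea, f.commutes, j1, ea]

theorem lm_ji (f : A →ₐ[ℂ] B) : lm (f : A →+* B) (ji e A) = ji e B := by
  rw [ji, lm_sI, ea, f.commutes, ji, ea]

theorem lm_j2 (f : A →ₐ[ℂ] B) : lm (f : A →+* B) (j2 e A) = j2 e B := by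
  rw [j2, map_mul, lm_ji, P286EN.lm_ys, j2]

/-- One of the two generators. -/
def IsJ (w : Ls A) : Prop := w = j1 e A ∨ w = j2 e A

variable {e}

theorem IsJ.mul {u w : Ls A} (hu : IsJ e u) (hw : IsJ e w) : u * w ∈ Rg E A := by
  rcases hu with rfl | rfl <;> rcases hw with rfl | rfl
  · exact j1_j1 (A := A) e ▸ Px_le_Rg E (xe_mem _)
  · exact j1_j2 (A := A) e ▸ ys_mem_Rg E
  · rw [mul_comm, j1_j2]; exact ys_mem_Rg E
  · exact j2_j2 (A := A) e ▸ Px_le_Rg E (gx_mem e)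

theorem IsJ.lm {w : Ls B} (hw : IsJ e w) (f : A →ₐ[ℂ] B) :
    ∃ u, IsJ e u ∧ lm (f : A →+* B) u = w := by
  rcases hw with rfl | rfl
  · exact ⟨_, Or.inl rfl, lm_j1 e f⟩
  · exact ⟨_, Or.inr rfl, lm_j2 e f⟩

variable (e)

/-- The lattice `s M + (y / s) M`. -/
def J (M : Submodule A (Fin N → Ls A)) : Submodule A (Fin N → Ls A) where
  carrier := {m | ∃ u ∈ M, ∃ w ∈ M, m = j1 e A • u + j2 e A • w}
  add_mem' := by
    rintro _ _ ⟨u, hu, w, hw, rfl⟩ ⟨u', hu', w', hw', rfl⟩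
    exact ⟨u + u', M.add_mem hu hu', w + w', M.add_mem hw hw', by
      rw [smul_add, smul_add, add_add_add_comm]⟩
  zero_mem' := ⟨0, M.zero_mem, 0, M.zero_mem, by simp⟩
  smul_mem' := by
    rintro c _ ⟨u, hu, w, hw, rfl⟩
    exact ⟨c • u, M.smul_mem c hu, c • w, M.smul_mem c hw, by rw [smul_add, smul_csmul, smul_csmul]⟩

variable {e} {M M' : Submodule A (Fin N → Ls A)}

theorem mem_J {m : Fin N → Ls A} :
    m ∈ J e M ↔ ∃ u ∈ M, ∃ w ∈ M, m = j1 e A • u + j2 e A • w := Iff.rfl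

theorem IsJ.mem {w : Ls A} (hw : IsJ e w) {m : Fin N → Ls A} (hm : m ∈ M) : w • m ∈ J e M := by
  rcases hw with rfl | rfl
  · exact ⟨m, hm, 0, M.zero_mem, by rw [smul_zero, add_zero]⟩
  · exact ⟨0, M.zero_mem, m, hm, by rw [smul_zero, zero_add]⟩

theorem J_le : J e M ≤ M' ↔ ∀ w : Ls A, IsJ e w → ∀ m ∈ M, w • m ∈ M' :=
  ⟨fun h w hw m hm => h (hw.mem hm), fun h => by
    rintro _ ⟨u, hu, w, hw, rfl⟩
    exact M'.add_mem (h _ (Or.inl rfl) u hu) (h _ (Or.inr rfl) w hw)⟩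

theorem J_mono (h : M ≤ M') : J e M ≤ J e M' := J_le.2 fun _ hw _ hm => hw.mem (h hm)

theorem J_span : J e M = Submodule.span A {m | ∃ w : Ls A, IsJ e w ∧ ∃ u ∈ M, m = w • u} :=
  le_antisymm (J_le.2 fun w hw m hm => Submodule.subset_span ⟨w, hw, m, hm, rfl⟩)
    (Submodule.span_le.2 (by rintro _ ⟨w, hw, u, hu, rfl⟩; exact hw.mem hu))

theorem stab_J {R : Subring (Ls A)} (h : Stab R M) : Stab R (J e M) := by
  rintro r hr _ ⟨u, hu, w, hw, rfl⟩
  exact ⟨r • u, h r hr u hu, r • w, h r hr w hw, by rw [smul_add, smul_comm r, smul_comm r]⟩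

theorem IsJ.mem' (h : Stab (Rg E A) M) {w : Ls A} (hw : IsJ e w) {m : Fin N → Ls A}
    (hm : m ∈ J e M) : w • m ∈ M := by
  obtain ⟨u, hu, v, hv, rfl⟩ := hm
  rw [smul_add, smul_smul, smul_smul]
  exact M.add_mem (h _ (hw.mul (Or.inl rfl)) u hu) (h _ (hw.mul (Or.inr rfl)) v hv)

theorem mem_J_of (h : Stab (Px A) M) {m : Fin N → Ls A} (hm : ∀ w : Ls A, IsJ e w → w • m ∈ M) :
    m ∈ J e M := by
  obtain ⟨α, hα, β, hβ, h1⟩ := bez (A := A) e
  refine ⟨α • j1 e A • m, h _ hα _ (hm _ (Or.inl rfl)), β • j2 e A • m, h _ hβ _ (hm _ (Or.inr rfl)),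
    ?_⟩
  simp only [smul_smul]
  rw [← add_smul, show j1 e A * (α * j1 e A) + j2 e A * (β * j2 e A) = 1 by linear_combination h1,
    one_smul]

theorem mem_J_iff (h : Stab (Rg E A) M) {m : Fin N → Ls A} :
    m ∈ J e M ↔ ∀ w : Ls A, IsJ e w → w • m ∈ M :=
  ⟨fun hm _ hw => hw.mem' h hm, mem_J_of h.px⟩

theorem J_J (h : Stab (Rg E A) M) : J e (J e M) = M :=
  le_antisymm (J_le.2 fun _ hw _ hm => hw.mem' h hm)
    fun _ hm => mem_J_of (stab_J h.px) fun _ hw => hw.mem hm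

theorem J_map (a : Matrix (Fin N) (Fin N) (Ls A)) :
    J e (M.map (act a)) = (J e M).map (act a) := by
  refine le_antisymm (J_le.2 ?_) ?_
  · rintro w hw _ ⟨m, hm, rfl⟩
    exact ⟨w • m, hw.mem hm, mulVec_smul a w m⟩
  · rintro _ ⟨_, ⟨u, hu, w, hw, rfl⟩, rfl⟩
    exact ⟨_, ⟨u, hu, rfl⟩, _, ⟨w, hw, rfl⟩, by
      rw [act_apply, act_apply, act_apply, mulVec_add, mulVec_smul, mulVec_smul]⟩

/-- An operator which maps `M` to `M'` maps `J M` to `J M'`. -/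
theorem J_lat (f : A →ₐ[ℂ] B) {P : Submodule B (Fin N → Ls B)} {a : Matrix (Fin N) (Fin N) (Ls B)}
    (h : ∀ m ∈ M, a *ᵥ (lm (f : A →+* B) ∘ m) ∈ P) :
    ∀ m ∈ J e M, a *ᵥ (lm (f : A →+* B) ∘ m) ∈ J e P := by
  rintro _ ⟨u, hu, w, hw, rfl⟩
  exact ⟨_, h u hu, _, h w hw, by
    rw [lm_comp_add, lm_comp_smul, lm_comp_smul, lm_j1, lm_j2, mulVec_add, mulVec_smul,
      mulVec_smul]⟩

theorem J_lat' (f : A →ₐ[ℂ] B) {P : Submodule B (Fin N → Ls B)} {a : Matrix (Fin N) (Fin N) (Ls B)}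
    (hM : Stab (Rg E A) M) (hP : Stab (Rg E B) P)
    (h : ∀ m ∈ J e M, a *ᵥ (lm (f : A →+* B) ∘ m) ∈ J e P) :
    ∀ m ∈ M, a *ᵥ (lm (f : A →+* B) ∘ m) ∈ P := by
  have h1 := J_lat (e := e) f h
  rwa [J_J hM, J_J hP] at h1

theorem J_op {a : Matrix (Fin N) (Fin N) (Ls A)} (h : ∀ m ∈ M, a *ᵥ m ∈ M') :
    ∀ m ∈ J e M, a *ᵥ m ∈ J e M' := J_lat (AlgHom.id ℂ A) h

theorem J_op' {a : Matrix (Fin N) (Fin N) (Ls A)} (hM : Stab (Rg E A) M) (hP : Stab (Rg E A) M')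
    (h : ∀ m ∈ J e M, a *ᵥ m ∈ J e M') : ∀ m ∈ M, a *ᵥ m ∈ M' := J_lat' (AlgHom.id ℂ A) hM hP h

theorem J_bcM (f : A →ₐ[ℂ] B) :
    J e (P286ER.bcM (f : A →+* B) M) = P286ER.bcM (f : A →+* B) (J e M) := by
  refine le_antisymm (J_le.2 fun w hw m hm => ?_) (bcM_le.2 fun m hm => ?_)
  · obtain ⟨u, hu, rfl⟩ := hw.lm f
    refine bcM_induction (P := fun m => lm (f : A →+* B) u • m ∈ P286ER.bcM _ (J e M))
      (fun m hm => ?_) ?_ (fun a b ha hb => ?_) (fun c a ha => ?_) hm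
    · rw [← lm_comp_smul]
      exact mem_bcM _ (hu.mem hm)
    · rw [smul_zero]
      exact zero_mem _
    · rw [smul_add]
      exact add_mem ha hb
    · rw [smul_csmul]
      exact Submodule.smul_mem _ c ha
  · have h1 := J_lat (e := e) f (a := 1) (P := P286ER.bcM (f : A →+* B) M)
      (fun m hm => by rw [one_mulVec]; exact mem_bcM _ hm) m hm
    rwa [one_mulVec] at h1

theorem frm_J {F : Matrix (Fin N) (Fin N) A} (h : Frm E F M) : Frm E F (J e M) := by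
  have key : ∀ u w : Ls A, IsJ e u → IsJ e w → ∀ m ∈ M, ∀ m' ∈ M,
      (u • m) ⬝ᵥ cm F *ᵥ (w • m') ∈ Rg E A := fun u w hu hw m hm m' hm' => by
    rw [mulVec_smul, smul_dotProduct, dotProduct_smul, smul_smul, smul_eq_mul]
    exact (Rg E A).mul_mem (hu.mul hw) (h m hm m' hm')
  rintro _ ⟨u, hu, w, hw, rfl⟩ _ ⟨u', hu', w', hw', rfl⟩
  rw [mulVec_add, add_dotProduct, dotProduct_add, dotProduct_add]
  exact (Rg E A).add_mem
    ((Rg E A).add_mem (key _ _ (Or.inl rfl) (Or.inl rfl) _ hu _ hu')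
      (key _ _ (Or.inl rfl) (Or.inr rfl) _ hu _ hw'))
    ((Rg E A).add_mem (key _ _ (Or.inr rfl) (Or.inl rfl) _ hw _ hu')
      (key _ _ (Or.inr rfl) (Or.inr rfl) _ hw _ hw'))

theorem lieS_J {G : Grp} {M : Submodule A (Fin G.N → Ls A)} (h : Stab (Rg E A) M) :
    lieS G (J e M) = lieS G M :=
  le_antisymm (fun _ hξ => J_op' h h hξ) fun _ hξ => J_op hξ

end

end Vale.Agent.P286EL
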