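import Vale.Agent.P286ES.Gen
import Vale.Agent.P286EI.L3
import Vale.Agent.P286EI.Wey

/-!
# Local finiteness and regularity in rings of differential operators
-/

set_option linter.all false

namespace Vale.Agent.P286EL

open Module Vale.Agent.P286ES Vale.Agent.P286EI

noncomputable section

variable {M N P : Type} [AddCommGroup M] [Module ℂ M] [AddCommGroup N] [Module ℂ N]
  [AddCommGroup P] [Module ℂ P]

/-- The locally finite vectors. -/
def lfS (L : Fin 3 → End ℂ M) : Submodule ℂ M where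
  carrier := {m | ∃ W : Submodule ℂ M, W.FG ∧ m ∈ W ∧ ∀ a, ∀ x ∈ W, L a x ∈ W}
  zero_mem' := ⟨⊥, Submodule.fg_bot, zero_mem _, fun a x hx => by
    rw [(Submodule.mem_bot ℂ).1 hx, map_zero]; exact zero_mem _⟩
  add_mem' := by
    rintro x y ⟨W, h1, h2, h3⟩ ⟨W', h1', h2', h3'⟩
    refine ⟨W ⊔ W', h1.sup h1', Submodule.add_mem_sup h2 h2', fun a z hz => ?_⟩
    obtain ⟨u, hu, v, hv, rfl⟩ := Submodule.mem_sup.1 hz
    rw [map_add]
    exact Submodule.add_mem_sup (h3 a u hu) (h3' a v hv)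
  smul_mem' c x := by
    rintro ⟨W, h1, h2, h3⟩
    exact ⟨W, h1, W.smul_mem c h2, h3⟩

theorem lf_iff {L : Fin 3 → End ℂ M} : LF L ↔ ∀ m, m ∈ lfS L :=
  forall_congr' fun _ => exists_congr fun W => and_congr_left fun _ =>
    Module.Finite.iff_fg

theorem lf_smul {L : Fin 3 → End ℂ M} (h : LF L) (c : ℂ) : LF (c • L) := fun m => by
  obtain ⟨W, h1, h2, h3⟩ := h m
  exact ⟨W, h1, h2, fun a x hx => W.smul_mem c (h3 a x hx)⟩

theorem lf_bil {L : Fin 3 → End ℂ M} {L' : Fin 3 → End ℂ N} {L'' : Fin 3 → End ℂ P}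
    (μ : M →ₗ[ℂ] N →ₗ[ℂ] P) (h : ∀ a x y, L'' a (μ x y) = μ (L a x) y + μ x (L' a y))
    {x : M} {y : N} (hx : x ∈ lfS L) (hy : y ∈ lfS L') : μ x y ∈ lfS L'' := by
  obtain ⟨W, h1, h2, h3⟩ := hx
  obtain ⟨W', h1', h2', h3'⟩ := hy
  refine ⟨Submodule.map₂ μ W W', h1.map₂ μ h1', Submodule.apply_mem_map₂ μ h2 h2', fun a => ?_⟩
  change Submodule.map₂ μ W W' ≤ (Submodule.map₂ μ W W').comap (L'' a)
  refine Submodule.map₂_le.2 fun u hu v hv => ?_
  rw [Submodule.mem_comap, h]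
  exact add_mem (Submodule.apply_mem_map₂ μ (h3 a u hu) hv)
    (Submodule.apply_mem_map₂ μ hu (h3' a v hv))

theorem lf_fam {L : Fin 3 → End ℂ M} {ι : Type} [Finite ι] (v : ι → M)
    (h : ∀ a i, L a (v i) ∈ Submodule.span ℂ (Set.range v)) (i : ι) : v i ∈ lfS L :=
  ⟨Submodule.span ℂ (Set.range v), Submodule.fg_span (Set.finite_range v),
    Submodule.subset_span ⟨i, rfl⟩, fun a =>
      (Submodule.span_le.2 (by rintro _ ⟨i, rfl⟩; exact h a i) :
        _ ≤ (Submodule.span ℂ (Set.range v)).comap (L a))⟩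

theorem lf_zero {L : Fin 3 → End ℂ M} {x : M} (h : ∀ a, L a x = 0) : x ∈ lfS L :=
  lf_fam (fun _ : Unit => x) (fun a _ => by rw [h]; exact zero_mem _) ()

theorem lf_common {L : Fin 3 → End ℂ M} (h : LF L) {ι : Type} [Finite ι] (v : ι → M) :
    ∃ W : Submodule ℂ M, W.FG ∧ (∀ i, v i ∈ W) ∧ ∀ a, ∀ x ∈ W, L a x ∈ W := by
  choose W h1 h2 h3 using fun i => lf_iff.1 h (v i)
  refine ⟨⨆ i, W i, Submodule.fg_iSup W h1, fun i => Submodule.mem_iSup_of_mem i (h2 i), fun a => ?_⟩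
  change ⨆ i, W i ≤ (⨆ i, W i).comap (L a)
  exact iSup_le fun i x hx => Submodule.mem_iSup_of_mem i (h3 i a x hx)

/-- Local finiteness passes to finite families, for operators which act on the coefficients and by
constant matrices. -/
theorem lf_pi {L : Fin 3 → End ℂ M} (h : LF L) {ι : Type} [Finite ι] (e : N ≃ₗ[ℂ] (ι → M))
    {L' : Fin 3 → End ℂ N} (h' : ∀ (W : Submodule ℂ M) a x, (∀ i, e x i ∈ W) →
      (∀ i, L a (e x i) ∈ W) → ∀ i, e (L' a x) i ∈ W) : LF L' := lf_iff.2 fun x => by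
  obtain ⟨W, h1, h2, h3⟩ := lf_common h (e x)
  refine ⟨(Submodule.pi Set.univ fun _ => W).map e.symm.toLinearMap,
    (Submodule.fg_pi fun _ => h1).map _, ⟨e x, fun i _ => h2 i, e.symm_apply_apply x⟩, ?_⟩
  rintro a _ ⟨y, hy, rfl⟩
  have h4 : ∀ i, e (e.symm y) i ∈ W := fun i => by rw [e.apply_symm_apply]; exact hy i trivial
  exact ⟨_, fun i _ => h' W a _ h4 (fun i => h3 a _ (h4 i)) i, e.symm_apply_apply _⟩

theorem co_mem {W : Submodule ℂ M} {x : L3 M} : (∀ S, L3.co ℂ M x S ∈ W) ↔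
    x.s ∈ W ∧ (∀ a, x.v a ∈ W) ∧ (∀ a, x.w a ∈ W) ∧ x.t ∈ W := by
  constructor
  · intro h
    refine ⟨by simpa [L3.co] using h ∅, fun a => ?_, fun a => ?_, by simpa [L3.co] using h {0, 1, 2}⟩
    · fin_cases a
      exacts [by simpa [L3.co] using h {0}, by simpa [L3.co] using h {1},
        by simpa [L3.co] using h {2}]
    · fin_cases a
      exacts [by simpa [L3.co] using h {1, 2}, by simpa [L3.co] using h {0, 2},
        by simpa [L3.co] using h {0, 1}]
  · rintro ⟨h1, h2, h3, h4⟩ S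
    induction S using L3.fin8 <;> simp [L3.co, *]

theorem cx_mem {W : Submodule ℂ M} {v : Fin 3 → M} (h : ∀ a, v a ∈ W) (a b : Fin 3) :
    L3.cx ℂ M a v b ∈ W := by
  fin_cases a <;> fin_cases b <;> simp [L3.cx_apply, h]

theorem lf_L3 {L : Fin 3 → End ℂ M} (h : LF L) (κ : ℂ) :
    LF fun a => (L3.map (L a) + κ • L3.ad ℂ M a : End ℂ (L3 M)) :=
  lf_pi h (L3.co ℂ M) fun W a x h1 h2 => by
    have h3 : ∀ S, L3.co ℂ M (L3.map (L a) x) S ∈ W := fun S => by
      have := h2 S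
      induction S using L3.fin8 <;> simpa [L3.co, L3.map_apply] using this
    obtain ⟨-, k2, k3, -⟩ := co_mem.1 h1
    have h4 : ∀ S, L3.co ℂ M (L3.ad ℂ M a x) S ∈ W :=
      co_mem.2 ⟨zero_mem _, cx_mem k2 a, cx_mem k3 a, zero_mem _⟩
    intro S
    rw [LinearMap.add_apply, LinearMap.smul_apply, map_add, map_smul]
    exact add_mem (h3 S) (W.smul_mem κ (h4 S))

section Alg

variable {A : Type} [Ring A] [Algebra ℂ A]

/-- The inner derivation. -/
def adj (m : A) : End ℂ A := LinearMap.mulLeft ℂ m - LinearMap.mulRight ℂ m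

theorem adj_apply (m x : A) : adj m x = m * x - x * m := rfl

theorem lf_mul (m : Fin 3 → A) {x y : A} (hx : x ∈ lfS fun a => adj (m a))
    (hy : y ∈ lfS fun a => adj (m a)) : x * y ∈ lfS fun a => adj (m a) :=
  lf_bil (LinearMap.mul ℂ A) (fun a x y => by
    simp only [adj_apply, LinearMap.mul_apply']
    noncomm_ring) hx hy

theorem lf_mat {n : Type} [Fintype n] [DecidableEq n] (m : Fin 3 → A) (h : LF fun a => adj (m a))
    (S : Fin 3 → Matrix n n ℂ) :
    LF fun a => adj (Matrix.scalar n (m a) + (S a).map (algebraMap ℂ A)) :=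
  lf_pi h (ι := n × n) ((Matrix.ofLinearEquiv ℂ).symm.trans (LinearEquiv.curry ℂ A n n).symm)
    fun W a x h1 h2 i => by
      have h3 : ∀ k l, x k l ∈ W := fun k l => h1 (k, l)
      change adj (Matrix.scalar n (m a) + (S a).map (algebraMap ℂ A)) x i.1 i.2 ∈ W
      have h4 : adj (Matrix.scalar n (m a) + (S a).map (algebraMap ℂ A)) x i.1 i.2 =
          adj (m a) (x i.1 i.2) + (∑ k, S a i.1 k • x k i.2 - ∑ k, S a k i.2 • x i.1 k) := by
        simp only [adj_apply, add_mul, mul_add, Matrix.sub_apply, Matrix.add_apply,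
          Matrix.scalar_apply, Matrix.diagonal_mul, Matrix.mul_diagonal]
        simp only [Matrix.mul_apply, Matrix.map_apply, ← Algebra.commutes, ← Algebra.smul_def]
        abel
      rw [h4]
      exact add_mem (h2 i) (sub_mem (sum_mem fun k _ => W.smul_mem _ (h3 _ _))
        (sum_mem fun k _ => W.smul_mem _ (h3 _ _)))

end Alg

section Weyl

variable {ι B : Type} [CommRing B] [Algebra ℂ B] [DecidableEq ι] [Finite ι]
  {pd : Derivation ℂ B B}

theorem lf_dw (m : Fin 3 → DW ι pd) (hc : ∀ a z, m a * DW.cf ι pd z = DW.cf ι pd z * m a)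
    (hu : ∀ a, m a * DW.du ι pd = DW.du ι pd * m a)
    (hy : ∀ a b, adj (m a) (DW.y pd b) ∈ Submodule.span ℂ (Set.range (DW.y (ι := ι) pd)))
    (hd : ∀ a b, adj (m a) (DW.d pd b) ∈ Submodule.span ℂ (Set.range (DW.d (ι := ι) pd))) :
    LF fun a => adj (m a) := lf_iff.2 fun x => by
  induction x using DW.ind with
  | h0 z => exact lf_zero fun a => sub_eq_zero.2 (hc a z)
  | h1 b => exact lf_fam _ hy b
  | h2 b => exact lf_fam _ hd b
  | h3 => exact lf_zero fun a => sub_eq_zero.2 (hu a)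
  | add x y hx hy => exact add_mem hx hy
  | mul x y hx hy => exact lf_mul m hx hy

end Weyl

section Reg

variable {κ R : Type} [CommRing R] [Algebra ℂ R] {δ : κ → Derivation ℂ R R}

theorem of_reg (h : DO.Cm δ) {f : R} (hf : ∀ z, f * z = 0 → z = 0) (x : DO δ)
    (hx : DO.of δ f * x = 0) : x = 0 := by
  obtain ⟨p, rfl⟩ := DO.no_surj x
  rw [← DO.no_C_mul] at hx
  have h1 := DO.no_inj h (hx.trans (map_zero _).symm)
  have h2 : p = 0 := MvPolynomial.ext _ _ fun α => hf _ (by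
    rw [← MvPolynomial.coeff_C_mul, h1, MvPolynomial.coeff_zero])
  rw [h2, map_zero]

theorem quad_reg {B : Type} [CommRing B] (f : B) (z : MvPolynomial (Fin 3) B)
    (h : (∑ a, MvPolynomial.X a ^ 2 - MvPolynomial.C f) * z = 0) : z = 0 := by
  have h1 := congrArg (MvPolynomial.finSuccEquiv B 2) h
  have h2 : MvPolynomial.finSuccEquiv B 2 (∑ a, MvPolynomial.X a ^ 2 - MvPolynomial.C f) =
      Polynomial.X ^ 2 - Polynomial.C (MvPolynomial.C f - ∑ a, MvPolynomial.X a ^ 2) := by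
    rw [Fin.sum_univ_succ]
    simp only [map_sub, map_add, map_sum, map_pow, MvPolynomial.finSuccEquiv_X_zero,
      MvPolynomial.finSuccEquiv_X_succ]
    rw [show MvPolynomial.finSuccEquiv B 2 (MvPolynomial.C f) = Polynomial.C (MvPolynomial.C f) from
      (MvPolynomial.finSuccEquiv B 2).commutes f]
    ring
  rw [map_mul, map_zero, h2] at h1
  exact (MvPolynomial.finSuccEquiv B 2).injective
    (((Polynomial.monic_X_pow_sub_C _ two_ne_zero).mul_right_eq_zero_iff.1 h1).trans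
      (map_zero _).symm)

end Reg

end

end Vale.Agent.P286EL
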