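import Vale.Agent.P286EL.Pd0

/-!
# The generator as a cone
-/

set_option linter.all false

namespace Vale.Agent.P286EX

open CategoryTheory Matrix TensorProduct Vale.Agent.P286 Vale.Agent.P286.St Vale.Agent.P286.H847
  Vale.Agent.P286E Vale.Agent.P286EG Vale.Agent.P286.H710
open Vale.Agent.P286EK (DGA DD TD CZ RM TwA Tw sn w2)

noncomputable section

theorem span_map' {R V W : Type} [CommRing R] [AddCommGroup V] [Module R V] [AddCommGroup W]
    [Module R W] (L : V →ₗ[R] W) {s : Set V} {t : Submodule R W} (h : ∀ p ∈ s, L p ∈ t) {x : V}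
    (hx : x ∈ Submodule.span R s) : L x ∈ t :=
  (Submodule.span_le.2 (fun p hp => h p hp) : Submodule.span R s ≤ t.comap L) hx

variable {I : Type} [SmallCategory I] {D : CD I} {G : Grp} {K : GK G} {xd : XD D} {s : ℂ}
  {U : Rep K}

namespace PD0

variable (P : PD0 K xd s U)

/-- The right action over `X`. -/
abbrev rho (X : QO D) : RA (P.P.K X) (P.A.A X.i) where
  sg := (P.sg X).restrictScalars ℂ
  sg_gr := P.sg_gr X
  int := P.int X
  ra := (LinearMap.restrictScalarsₗ ℂ (RQ G s X) _ _ ℂ).comp (P.ra X)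
  ra_mul := P.ra_mul X
  leib := P.ra_d X
  ra_gr := P.ra_gr X
  ra_smul a r p := map_smul (P.ra X a) r p
  ra_act := P.ra_act X

/-- The cone over `X`. -/
abbrev cK (X : QO D) : H697.DGM (RQ G s X) := (P.rho X).coneK (P.T.F X.i)

theorem cd0 (X : QO D) (x : Fin 2 → (P.P.K X).M.V) : (P.cK X).M.d x 0 = (P.P.K X).M.d (x 0) :=
  (P.rho X).coneK_d0 _ x

theorem cd1 (X : QO D) (x : Fin 2 → (P.P.K X).M.V) : (P.cK X).M.d x 1 =
    (P.P.K X).M.d (x 1) - P.ra X (P.T.F X.i).x (P.sg X (x 0)) := (P.rho X).coneK_d1 _ x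

theorem cmem (X : QO D) (m : ℤ) (x : Fin 2 → (P.P.K X).M.V) : x ∈ (P.cK X).M.gr m ↔
    x 0 ∈ (P.P.K X).M.gr m ∧ x 1 ∈ (P.P.K X).M.gr (m - 1) := (P.rho X).coneK_mem _ m x

theorem sg_i (X : QO D) (a : Fin 3) (p : (P.P.K X).M.V) :
    P.sg X (P.P.i X a p) = - P.P.i X a (P.sg X p) := by
  have h := (P.rho X).sg_deg (P.rho X) ((P.P.i X a).restrictScalars ℂ) (-1)
    (fun m x hx => P.P.i_gr X a m x hx) p
  simpa using h

theorem t_sg {X Y : QO D} (u : Ar G s X Y) (p : (P.P.K X).M.V) :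
    (P.P.t u).f (P.sg X p) = P.sg Y ((P.P.t u).f p) :=
  ((P.rho X).sg_zero (P.rho Y) (P.P.t u).f (P.P.t u).deg p).symm

theorem ra_lie (X : QO D) (a : Fin 3) (b : (P.A.A X.i).R) (p : (P.P.K X).M.V) :
    lieOp _ (P.P.i X a) (P.ra X b p) = P.ra X b (lieOp _ (P.P.i X a) p) := by
  have h1 := congrArg (P.P.K X).M.d (P.ra_i X b a p)
  have h2 := P.ra_d X b (P.P.i X a p)
  have h3 := congrArg (P.P.i X a) (P.ra_d X b p)
  have h4 := congrArg (P.ra X ((P.A.A X.i).d b)) (P.sg_i X a p)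
  have h5 := P.ra_i X b a ((P.P.K X).M.d p)
  have h6 := P.ra_i X ((P.A.A X.i).d b) a (P.sg X p)
  rw [map_add] at h3
  rw [map_neg] at h4
  refine (congrArg₂ (· + ·) (h1.symm.trans h2) h3).trans (Eq.trans ?_ (map_add (P.ra X b)
    ((P.P.K X).M.d (P.P.i X a p)) (P.P.i X a ((P.P.K X).M.d p))).symm)
  rw [h4, h5, h6]
  abel

theorem clie (X : QO D) (a : Fin 3) (x : Fin 2 → (P.P.K X).M.V) (l : Fin 2) :
    lieOp (P.cK X) ((P.P.i X a).compLeft (Fin 2)) x l = lieOp _ (P.P.i X a) (x l) := by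
  revert l
  refine congrFun (two_ext ?_ ?_)
  · exact congrArg₂ (· + ·) (P.cd0 X _) (congrArg (P.P.i X a) (P.cd0 X x))
  · refine (congrArg₂ (· + ·) (P.cd1 X _) (congrArg (P.P.i X a) (P.cd1 X x))).trans ?_
    simp only [LinearMap.compLeft_apply, Function.comp_apply, P.sg_i, map_neg, map_sub, P.ra_i,
      lieOp_apply]
    abel

theorem exists_gz {i j : I} (α : i ⟶ j) (l : Fin 2) :
    ∃ z w, (P.T.g α l).1 = P.cf j z ∧ (P.T.g α l)⁻¹.1 = P.cf j w := by
  fin_cases l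
  · exact ⟨1, 1, (map_one _).symm, (map_one _).symm⟩
  · obtain ⟨w, hw⟩ := ((D.c_unit α).pow 2).exists_right_inv
    exact ⟨_, w, P.u_eq α, Units.inv_eq_of_mul_eq_one_right (by
      change (P.T.u α).1 * _ = 1
      rw [P.u_eq, ← map_mul, hw, map_one])⟩

/-- The correction of the transition map. -/
def gi {X Y : QO D} (u : Ar G s X Y) (l : Fin 2) :
    (P.P.K Y).M.V →ₗ[RQ G s Y] (P.P.K Y).M.V := P.ra Y (P.T.g (QM.α u) l)⁻¹.1

variable {X Y Z : QO D}

theorem gi_zero (u : Ar G s X Y) (p : (P.P.K Y).M.V) : P.gi u 0 p = p := P.ra_one Y p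

theorem gi_d (u : Ar G s X Y) (l : Fin 2) (p : (P.P.K Y).M.V) :
    (P.P.K Y).M.d (P.gi u l p) = P.gi u l ((P.P.K Y).M.d p) := by
  obtain ⟨z, w, -, h⟩ := P.exists_gz (QM.α u) l
  rw [gi, h]
  exact (P.rho Y).d_ra0 (P.cf_d _ w) p

theorem gi_gr (u : Ar G s X Y) (l : Fin 2) (m : ℤ) (p : (P.P.K Y).M.V)
    (hp : p ∈ (P.P.K Y).M.gr m) : P.gi u l p ∈ (P.P.K Y).M.gr m := by
  obtain ⟨z, w, -, h⟩ := P.exists_gz (QM.α u) l
  rw [gi, h, ← add_zero m]
  exact P.ra_gr Y m 0 p _ hp (P.cf_gr _ w)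

theorem gi_j (u : Ar G s X Y) (l : Fin 2) (a : Fin 3) (p : (P.P.K Y).M.V) :
    P.j Y a (P.gi u l p) = P.gi u l (P.j Y a p) := by
  obtain ⟨z, w, -, h⟩ := P.exists_gz (QM.α u) l
  rw [gi, h, P.cf_j]

theorem gi_g (u : Ar G s X Y) (l : Fin 2) (p : (P.P.K Y).M.V) :
    P.gi u l (P.ra Y (P.T.g (QM.α u) l).1 p) = p := by
  rw [gi, ← P.ra_mul, Units.mul_inv, P.ra_one]

theorem g_gi (u : Ar G s X Y) (l : Fin 2) (p : (P.P.K Y).M.V) :
    P.ra Y (P.T.g (QM.α u) l).1 (P.gi u l p) = p := by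
  rw [gi, ← P.ra_mul, Units.inv_mul, P.ra_one]

theorem gi_fib (u : Ar G s X Y) (h : Fib u) (l : Fin 2) (p : (P.P.K Y).M.V) : P.gi u l p = p := by
  obtain ⟨e, h⟩ := h
  have h1 : ∀ {i j : I} (e : i = j), P.T.g (eqToHom e) l = 1 := fun e => by
    subst e
    exact P.T.g_id _ l
  rw [gi, h, h1, inv_one, Units.val_one, P.ra_one]

/-- The transition maps of the cone. -/
def ct (u : Ar G s X Y) : GD.Hom (P.cK X).M (P.cK Y).M where
  f := LinearMap.pi fun l =>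
    ((P.gi u l).restrictScalars ℂ).comp ((P.P.t u).f.comp (LinearMap.proj l))
  comm x := two_ext
    (by
      rw [P.cd0]
      change P.gi u 0 ((P.P.t u).f ((P.cK X).M.d x 0)) =
        (P.P.K Y).M.d (P.gi u 0 ((P.P.t u).f (x 0)))
      rw [P.cd0, P.gi_d, (P.P.t u).comm])
    (by
      rw [P.cd1]
      change P.gi u 1 ((P.P.t u).f ((P.cK X).M.d x 1)) =
        (P.P.K Y).M.d (P.gi u 1 ((P.P.t u).f (x 1))) -
          P.ra Y _ (P.sg Y (P.gi u 0 ((P.P.t u).f (x 0))))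
      rw [P.cd1, P.gi_d, map_sub, map_sub, (P.P.t u).comm, P.ra_t, P.T.τ_F, P.ra_mul, P.gi_zero,
        P.t_sg]
      exact congrArg _ (P.gi_g u 1 _))
  deg m x hx := (P.cmem Y m _).2
    ⟨P.gi_gr u 0 _ _ ((P.P.t u).deg _ _ ((P.cmem X m x).1 hx).1),
      P.gi_gr u 1 _ _ ((P.P.t u).deg _ _ ((P.cmem X m x).1 hx).2)⟩

theorem ct_apply (u : Ar G s X Y) (x : Fin 2 → (P.P.K X).M.V) (l : Fin 2) :
    (P.ct u).f x l = P.gi u l ((P.P.t u).f (x l)) := rfl

theorem ct_single (u : Ar G s X Y) (l : Fin 2) (p : (P.P.K X).M.V) :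
    (P.ct u).f (Pi.single l p) = Pi.single l (P.gi u l ((P.P.t u).f p)) := funext fun k =>
  Pi.apply_single (fun k p => P.gi u k ((P.P.t u).f p)) (fun k => by rw [map_zero, map_zero]) l p k

theorem gi_comp (u : Ar G s X Y) (v : Ar G s Y Z) (l : Fin 2) (p : (P.P.K Y).M.V) :
    P.gi (u ≫ v) l ((P.P.t v).f p) = P.gi v l ((P.P.t v).f (P.gi u l p)) := by
  have h := congrArg (fun z : (P.A.A Z.i).Rˣ => z⁻¹.1) (P.T.g_comp (QM.α u) (QM.α v) l)
  simp only [_root_.mul_inv_rev, Units.val_mul, ← map_inv, Units.coe_map] at h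
  rw [gi, gi, gi, P.ra_t, ← P.ra_mul]
  exact congrArg (fun z => P.ra Z z _) h

/-- The cone as a gauge family. -/
def cH : HG (K.gs D s) where
  K X := P.cK X
  i X a := (P.P.i X a).compLeft (Fin 2)
  i_gr X a m x hx := (P.cmem X _ _).2
    ⟨P.P.i_gr X a _ _ ((P.cmem X m x).1 hx).1, P.P.i_gr X a _ _ ((P.cmem X m x).1 hx).2⟩
  i_act X a v x := funext fun l => P.P.i_act X a v (x l)
  i_i X a b x := funext fun l => P.P.i_i X a b (x l)
  i_br X a b x := funext fun l => by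
    rw [Pi.sub_apply, Finset.sum_apply]
    exact (congrArg₂ (· - ·) (P.clie X a _ l) (congrArg (P.P.i X b) (P.clie X a x l))).trans
      (P.P.i_br X a b (x l))
  t u := P.ct u
  t_smul u a x := funext fun l =>
    (congrArg (P.gi u l) (P.P.t_smul u a (x l))).trans (map_smul (P.gi u l) _ _)
  t_id X x := funext fun l =>
    (P.gi_fib (𝟙 X :) ⟨rfl, rfl⟩ l _).trans (P.P.t_id X (x l))
  t_comp u v x := funext fun l =>
    (congrArg (P.gi (u ≫ v) l) (P.P.t_comp u v (x l))).trans (P.gi_comp u v l _)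
  t_i u b x := funext fun l => by
    rw [Finset.sum_apply]
    refine (congrArg (P.gi u l) (P.P.t_i u b (x l))).trans ((map_sum _ _ _).trans ?_)
    exact Finset.sum_congr rfl fun a _ =>
      (map_smul _ _ _).trans (congrArg _ (P.ra_i _ _ a _))
  t_act {X Y} u w n c v h x := funext fun l => by
    rw [Pi.add_apply, Pi.sub_apply, Finset.sum_apply, Finset.sum_apply]
    refine (P.ra_act Y _ w _).symm.trans
      ((congrArg (P.gi u l) (P.P.t_act u w n c v h (x l))).trans ?_)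
    rw [map_add, map_sub, map_sum, map_sum, map_smul]
    refine congrArg₂ (· + ·) (congrArg₂ (· - ·) (Finset.sum_congr rfl fun k _ => map_smul _ _ _) rfl)
      (Finset.sum_congr rfl fun a _ => (map_smul _ _ _).trans (congrArg _ ?_))
    exact (P.ra_lie Y a _ _).symm.trans (P.clie Y a ((P.ct u).f x) l).symm

/-- The right action on the cone. -/
def cra (X : QO D) : (TwA (P.T.F X.i)).R →ₗ[ℂ]
    (Fin 2 → (P.P.K X).M.V) →ₗ[RQ G s X] (Fin 2 → (P.P.K X).M.V) :=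
  ((P.rho X).cone (P.T.F X.i)).raL

theorem cra_apply (X : QO D) (a : (TwA (P.T.F X.i)).R) (x : Fin 2 → (P.P.K X).M.V) (k : Fin 2) :
    P.cra X a x k = P.ra X (TwA.m a 0 k) (x 0) + P.ra X (TwA.m a 1 k) (x 1) :=
  (P.rho X).cone_ra _ a x k

theorem cra_v (X : QO D) (a : (TwA (P.T.F X.i)).R) (p : (P.P.K X).M.V) (k : Fin 2) :
    P.cra X a (Pi.single 0 p) k = P.ra X (TwA.m a 0 k) p := by
  rw [cra_apply]
  simp

theorem cra_t (u : Ar G s X Y) (a : (TwA (P.T.F X.i)).R) (x : Fin 2 → (P.P.K X).M.V) :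
    (P.ct u).f (P.cra X a x) = P.cra Y (((Tw P.T).τ (QM.α u)).f a) ((P.ct u).f x) :=
  funext fun k => by
    refine Eq.trans ?_ (P.cra_apply Y _ _ k).symm
    rw [ct_apply, cra_apply, P286EK.Tw_m, P286EK.Tw_m]
    simp only [P.ra_mul, map_add, P.ra_t]
    exact congrArg₂ (· + ·) (congrArg (fun z => P.gi u k (P.ra Y _ z)) (P.g_gi u 0 _).symm)
      (congrArg (fun z => P.gi u k (P.ra Y _ z)) (P.g_gi u 1 _).symm)

/-- The basis of the cone. -/
def ce (X : QO D) :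
    Module.Basis (Finset (Fin 3) × BI U.n) (RQ G s X) (Fin 2 → (P.P.K X).M.V) :=
  cbas (P.e X) (P.e X)

theorem ce_t (X : QO D) (S m k) : P.ce X (S, m, k, true) = Pi.single 0 (P.e X (S, m, k)) :=
  cbas_t _ _ S m k

theorem ce_f (X : QO D) (S m k) : P.ce X (S, m, k, false) = Pi.single 1 (-P.e X (S, m, k)) :=
  cbas_f _ _ S m k

/-- The embedding with the index `ε`. -/
def em (X : QO D) (ε : Bool) : (P.P.K X).M.V →ₗ[RQ G s X] (Fin 2 → (P.P.K X).M.V) :=
  if ε then LinearMap.single _ (fun _ => (P.P.K X).M.V) 0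
  else -LinearMap.single _ (fun _ => (P.P.K X).M.V) 1

theorem em_t (X : QO D) (p : (P.P.K X).M.V) : P.em X true p = Pi.single 0 p := rfl

theorem em_f (X : QO D) (p : (P.P.K X).M.V) : P.em X false p = Pi.single 1 (-p) :=
  (Pi.single_neg (f := fun _ : Fin 2 => (P.P.K X).M.V) 1 p).symm

theorem ce_eq (X : QO D) (S m k ε) : P.ce X (S, m, k, ε) = P.em X ε (P.e X (S, m, k)) := by
  cases ε
  · rw [ce_f, em_f]
  · rw [ce_t, em_t]

theorem em_op (X : QO D) (ε : Bool) (L : (P.P.K X).M.V →ₗ[ℂ] (P.P.K X).M.V) (p : (P.P.K X).M.V) :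
    (fun l => L (P.em X ε p l)) = P.em X ε (L p) := by
  cases ε
  · rw [em_f, em_f, ← map_neg]
    exact funext fun k => Pi.apply_single (fun _ => L) (fun _ => map_zero L) 1 _ k
  · exact funext fun k => Pi.apply_single (fun _ => L) (fun _ => map_zero L) 0 _ k

theorem em_lin (X : QO D) (ε : Bool) (L : (P.P.K X).M.V →ₗ[RQ G s X] (P.P.K X).M.V)
    (p : (P.P.K X).M.V) : L.compLeft (Fin 2) (P.em X ε p) = P.em X ε (L p) :=
  P.em_op X ε (L.restrictScalars ℂ) p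

/-- The index. -/
def ix (ε : Bool) : Fin 2 := if ε then 0 else 1

theorem ct_em (u : Ar G s X Y) (ε : Bool) (p : (P.P.K X).M.V) :
    (P.ct u).f (P.em X ε p) = P.em Y ε (P.gi u (ix ε) ((P.P.t u).f p)) := by
  cases ε
  · rw [em_f, em_f, ct_single, map_neg, map_neg]; rfl
  · rw [em_t, em_t, ct_single]; rfl

theorem d_em_f (X : QO D) (p : (P.P.K X).M.V) :
    (P.cK X).M.d (P.em X false p) = P.em X false ((P.P.K X).M.d p) :=
  two_ext (by rw [cd0]; simp [em_f]) (by rw [cd1]; simp [em_f])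

theorem d_em_t (X : QO D) (p : (P.P.K X).M.V) : (P.cK X).M.d (P.em X true p) =
    P.em X true ((P.P.K X).M.d p) + P.em X false (P.ra X (P.T.F X.i).x (P.sg X p)) :=
  two_ext (by rw [cd0]; simp [em_f, em_t]) (by rw [cd1]; simp [em_f, em_t])

end PD0

end

end Vale.Agent.P286EX
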