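import Vale.Agent.P286EL.Bb
import Vale.Agent.P286ER2.Tr

/-!
# The rotations on the transfer module
-/

set_option linter.all false

namespace Vale.Agent.P286EX.Tr

open CategoryTheory Matrix Vale.Agent.P286 Vale.Agent.P286.St Vale.Agent.P286E Vale.Agent.P286EI
  Vale.Agent.P286EL

noncomputable section

theorem mu_muW {B : Type} [CommRing B] [Algebra ℂ B] (κ : ℂ) (pd : Derivation ℂ B B) :
    mu κ pd = muW pd κ := funext fun a => (mu_eq κ _ _ a).symm

theorem mu_br {B : Type} [CommRing B] [Algebra ℂ B] (κ : ℂ) (pd : Derivation ℂ B B) :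
    Br κ (mu κ pd) := mu_muW κ pd ▸ (wy_dw pd).mu_br κ

theorem map_mu {B B' : Type} [CommRing B] [Algebra ℂ B] [CommRing B'] [Algebra ℂ B'] (κ : ℂ)
    {pd : Derivation ℂ B B} {pd' : Derivation ℂ B' B'} (t : DW.Tr (Fin 3) pd pd')
    (h : ∀ p q b, ∑ c, eps p q c • t.g b c = ∑ a', ∑ b', eps a' b' b • (t.g a' p * t.g b' q))
    (b : Fin 3) : DW.map t (mu κ pd b) = ∑ a, DW.cf _ pd' (t.g b a) * mu κ pd' a := by
  have e1 : DW.map t (mu κ pd b) = ∑ p, ∑ q, κ • (DW.cf _ pd'
      (∑ a', ∑ b', eps a' b' b • (t.g b' p * t.g a' q)) * (DW.y pd' p * DW.d pd' q)) := by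
    simp only [mu, map_sum, map_smul, DW.map_yd, Finset.sum_mul, Finset.smul_sum, smul_mul_assoc,
      smul_smul]
    simp only [Fin.sum_univ_three]
    fin_cases b <;> simp [eps] <;> abel
  have h' : ∀ p q, ∑ a', ∑ b', eps a' b' b • (t.g b' p * t.g a' q) = ∑ c, eps q p c • t.g b c :=
    fun p q => by simp only [h, mul_comm (t.g _ p)]
  rw [e1]
  simp only [h', mu, map_sum, map_smul, Finset.sum_mul, Finset.mul_sum, Finset.smul_sum,
    smul_mul_assoc, mul_smul_comm, smul_smul]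
  simp only [Fin.sum_univ_three]
  simp [eps]
  abel

variable {I : Type} [SmallCategory I] {D : CD I} {G : Grp} {s : ℂ} (xd : XD D) (K : GK G)
  {X Y : QO D}

theorem ll_act (X : QO D) (a : Fin 3) (v) (x : TX G s X) :
    ll xd K s X a (act xd G s X v x) = act xd G s X v (ll xd K s X a x) := by
  rw [ll_apply, ll_apply, map_neg, act_ra0]

theorem ll_br (X : QO D) (a b : Fin 3) (x : TX G s X) :
    ll xd K s X a (ll xd K s X b x) - ll xd K s X b (ll xd K s X a x) =
      ∑ c, (K.κ * eps a b c) • ll xd K s X c x := by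
  have h := congrArg (fun q => ra0 xd G s X q x) (mu_br K.κ (xd.pd X.i) a b)
  simp only [map_sub, map_sum, map_smul, LinearMap.sub_apply, LinearMap.sum_apply,
    LinearMap.smul_apply, ra0_mul] at h
  simp only [ll_apply, map_neg, neg_neg, smul_neg, Finset.sum_neg_distrib, ← h, neg_sub]

theorem inc_mu (κ : ℂ) (X : QO D) (a : Fin 3) :
    inc xd G s X (mu κ (xd.pd X.i) a) = mu κ (pdX xd G s X) a := by
  simp only [mu, map_sum, map_smul, map_mul, inc_y, inc_d]

theorem gu_mu (κ : ℂ) (u : Ar G s X Y) (b : Fin 3) : gu xd K u (mu κ (xd.pd X.i) b) =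
    ∑ a, DW.cf _ _ (bL G s Y (adm G (qh u) a b)) * mu κ (pdX xd G s Y) a := by
  refine (congrArg (DW.map (tr xd K u)) (inc_mu xd κ X b)).trans (map_mu κ _ (fun p q b => ?_) b)
  have h := K.adm_eps (P286EC.pt_adj (qpt u)) p q b
  rw [GK.adm_adj (qpt u)] at h
  have h2 := congrArg (bL G s Y) h
  simp only [map_sum, map_smul, map_mul] at h2
  exact h2

theorem t_ll (u : Ar G s X Y) (b : Fin 3) (x : TX G s X) :
    t xd K u (ll xd K s X b x) = ∑ a, adm G (qh u) a b • ll xd K s Y a (t xd K u x) := by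
  rw [ll_apply, map_neg, t_ra0, gu_mu, map_sum, LinearMap.sum_apply, ← Finset.sum_neg_distrib]
  refine Finset.sum_congr rfl fun a _ => ?_
  rw [raX_mul, raX_L, map_smul, ← inc_mu, raX_inc, ll_apply, smul_neg]

end

end Vale.Agent.P286EX.Tr
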