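import Vale.Agent.P286EX.Cop
import Vale.Agent.P286EU.Sv

/-!
# Smooth hypersurfaces, coordinates on curves and their double covers
-/

set_option linter.all false

namespace Vale.Agent.P286EL

open TrivSqZeroExt Polynomial Vale.Agent.P286E Vale.Agent.P286EU Vale.Agent.P286EX
open Vale.Agent.P286ET (IsAway)

noncomputable section

variable {A B L : Type} [CommRing A] [Algebra ℂ A] [CommRing B] [Algebra ℂ B] [CommRing L]
  [Algebra ℂ L]

theorem half_two : algebraMap ℂ A 2⁻¹ * 2 = 1 := by
  rw [← map_ofNat (algebraMap ℂ A) 2, ← map_mul]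
  norm_num

/-- The deformation of `g` in the direction `z * g ∘ p` for `z² = 0`. -/
def defo (g : A →ₐ[ℂ] B) (p : Derivation ℂ A A) (z : B) (hz : z * z = 0) : A →ₐ[ℂ] B where
  toFun a := g a + z * g (p a)
  map_one' := by simp
  map_zero' := by simp
  map_add' a b := by simp only [map_add]; ring
  map_mul' a b := by
    simp only [map_add, map_mul, Derivation.leibniz, smul_eq_mul]
    linear_combination (-(g (p a) * g (p b))) * hz
  commutes' c := by simp

theorem fsm_quot [Algebra.FormallySmooth ℂ A] (F : A) (p : Derivation ℂ A A)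
    (h : IsCoprime F (p F)) : Algebra.FormallySmooth ℂ (A ⧸ Ideal.span {F}) := by
  refine .of_comp_surjective fun B _ _ I hI g => ?_
  obtain ⟨a, b, e⟩ := h
  obtain ⟨g', hg⟩ := Algebra.FormallySmooth.comp_surjective ℂ A I hI
    (g.comp (Ideal.Quotient.mkₐ ℂ _))
  have h1 : ∀ x, Ideal.Quotient.mk I (g' x) = g (Ideal.Quotient.mk _ x) := AlgHom.congr_fun hg
  have h2 : g' F ∈ I := Ideal.Quotient.eq_zero_iff_mem.1 (by
    rw [h1, Ideal.Quotient.eq_zero_iff_mem.2 (Ideal.mem_span_singleton_self F), map_zero])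
  have h3 : g' F * g' F = 0 := by
    have := Ideal.pow_mem_pow h2 2
    rwa [hI, Ideal.mem_bot, sq] at this
  have h4 : -(g' F * g' b) * -(g' F * g' b) = 0 := by linear_combination (g' b * g' b) * h3
  have h5 : defo g' p _ h4 F = 0 := by
    have := congrArg g' e
    simp only [map_add, map_mul, map_one] at this
    change g' F + -(g' F * g' b) * g' (p F) = 0
    linear_combination (-g' F) * this + g' a * h3
  refine ⟨Ideal.Quotient.liftₐ _ (defo g' p _ h4) fun x hx => ?_, AlgHom.ext fun x => ?_⟩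
  · obtain ⟨q, rfl⟩ := Ideal.mem_span_singleton'.1 hx
    rw [map_mul, h5, mul_zero]
  · obtain ⟨x, rfl⟩ := Ideal.Quotient.mk_surjective x
    change Ideal.Quotient.mk I (g' x + -(g' F * g' b) * g' (p x)) = _
    rw [← h1, Ideal.Quotient.eq, add_sub_cancel_left]
    exact I.mul_mem_right _ (neg_mem (I.mul_mem_right _ h2))

theorem sm_quot [Algebra.Smooth ℂ A] (F : A) (p : Derivation ℂ A A)
    (h : IsCoprime F (p F)) : Algebra.Smooth ℂ (A ⧸ Ideal.span {F}) :=
  ⟨fsm_quot F p h, Algebra.FinitePresentation.quotient (Submodule.fg_span_singleton F)⟩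

/-- The first order deformation of `g` in the direction `z * g ∘ p`. -/
def phi (g : A →ₐ[ℂ] B) (p : Derivation ℂ A A) (z : B) : A →ₐ[ℂ] TrivSqZeroExt B B :=
  defo ((inlAlgHom ℂ B B).comp g) p (inr z) (inr_mul_inr _ _ _)

theorem phi_fst (g : A →ₐ[ℂ] B) (p : Derivation ℂ A A) (z : B) (a : A) :
    (phi g p z a).fst = g a := by
  change (inl (g a) + inr z * inl (g (p a)) : TrivSqZeroExt B B).fst = _
  simp

theorem phi_snd (g : A →ₐ[ℂ] B) (p : Derivation ℂ A A) (z : B) (a : A) :
    (phi g p z a).snd = z * g (p a) := by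
  change (inl (g a) + inr z * inl (g (p a)) : TrivSqZeroExt B B).snd = _
  simp [mul_comm]

theorem sm_mv [Algebra.Smooth ℂ A] {σ : Type} [Finite σ] : Algebra.Smooth ℂ (MvPolynomial σ A) :=
  letI : Algebra.Smooth A (MvPolynomial σ A) := ⟨inferInstance, inferInstance⟩
  Algebra.Smooth.comp ℂ A _

theorem sm_pol [Algebra.Smooth ℂ A] : Algebra.Smooth ℂ A[X] :=
  letI : Algebra.Smooth A A[X] := ⟨inferInstance, inferInstance⟩
  Algebra.Smooth.comp ℂ A _

theorem sm_loc [Algebra.Smooth ℂ A] (s : A) : Algebra.Smooth ℂ (Localization.Away s) :=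
  letI : Algebra.Smooth A (Localization.Away s) := Algebra.Smooth.of_isLocalization_Away s
  Algebra.Smooth.comp ℂ A _

theorem exists_mvD {σ : Type} (p : Derivation ℂ A A) (z : MvPolynomial σ A)
    (v : σ → MvPolynomial σ A) : ∃ q : Derivation ℂ (MvPolynomial σ A) (MvPolynomial σ A),
      (∀ a, q (MvPolynomial.C a) = z * MvPolynomial.C (p a)) ∧
        ∀ i, q (MvPolynomial.X i) = v i := by
  let ψ : MvPolynomial σ A →ₐ[ℂ] TrivSqZeroExt _ _ := MvPolynomial.aevalTower
    (phi (IsScalarTower.toAlgHom ℂ A (MvPolynomial σ A)) p z)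
    fun i => inl (MvPolynomial.X i) + inr (v i)
  have hC : ∀ a, ψ (MvPolynomial.C a) = _ := MvPolynomial.aevalTower_C _ _
  have hX : ∀ i, ψ (MvPolynomial.X i) = _ := MvPolynomial.aevalTower_X _ _
  have h : ∀ x, (ψ x).fst = x := fun x => by
    induction x using MvPolynomial.induction_on with
    | C a => rw [hC, phi_fst]; rfl
    | add x y hx hy => rw [map_add, fst_add, hx, hy]
    | mul_X x i hx => rw [map_mul, fst_mul, hx, hX]; simp
  refine ⟨secDer ψ h, fun a => ?_, fun i => ?_⟩
  · change (ψ _).snd = _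
    rw [hC, phi_snd]; rfl
  · change (ψ _).snd = _
    rw [hX]; simp

theorem exists_polD (p : Derivation ℂ A A) (z v : A[X]) : ∃ q : Derivation ℂ A[X] A[X],
      (∀ a, q (C a) = z * C (p a)) ∧ q X = v := by
  let ψ : A[X] →ₐ[ℂ] TrivSqZeroExt _ _ := aevalTower
    (phi (IsScalarTower.toAlgHom ℂ A A[X]) p z) (inl X + inr v)
  have hC : ∀ a, ψ (C a) = _ := aevalTower_C _ _
  have hX : ψ X = _ := aevalTower_X _ _
  have h : ∀ x, (ψ x).fst = x := fun x => by
    induction x using Polynomial.induction_on with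
    | C a => rw [hC, phi_fst]; rfl
    | add x y hx hy => rw [map_add, fst_add, hx, hy]
    | monomial n a hx => rw [pow_succ, ← mul_assoc, map_mul, fst_mul, hx, hX]; simp
  refine ⟨secDer ψ h, fun a => ?_, ?_⟩
  · change (ψ _).snd = _
    rw [hC, phi_snd]; rfl
  · change (ψ _).snd = _
    rw [hX]; simp

theorem sm_quad [Algebra.Smooth ℂ A] {σ : Type} [Fintype σ] (f : A) (p : Derivation ℂ A A)
    (h : IsCoprime f (p f)) : Algebra.Smooth ℂ (MvPolynomial σ A ⧸
      Ideal.span {(∑ a, MvPolynomial.X a ^ 2 - MvPolynomial.C f : MvPolynomial σ A)}) := by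
  obtain ⟨a, b, e⟩ := h
  obtain ⟨q, hC, hX⟩ := exists_mvD (σ := σ) p (-MvPolynomial.C b)
    fun i => algebraMap ℂ _ 2⁻¹ * MvPolynomial.C a * MvPolynomial.X i
  haveI := sm_mv (A := A) (σ := σ)
  refine sm_quot _ q ⟨-MvPolynomial.C a, 1, ?_⟩
  have h1 := congrArg (MvPolynomial.C (σ := σ)) e
  have h2 : ∀ i, q (MvPolynomial.X i ^ 2) = MvPolynomial.C a * MvPolynomial.X i ^ 2 := fun i => by
    rw [sq, Derivation.leibniz, hX, smul_eq_mul]
    linear_combination (MvPolynomial.C a * MvPolynomial.X i * MvPolynomial.X i) *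
      half_two (A := MvPolynomial σ A)
  simp only [map_add, map_mul, map_one] at h1
  simp only [map_sub, map_sum, h2, hC, ← Finset.mul_sum]
  linear_combination h1

theorem sm_dc [Algebra.Smooth ℂ A] (f : A) (p : Derivation ℂ A A) (h : IsCoprime f (p f)) :
    Algebra.Smooth ℂ (Dc f) := by
  obtain ⟨a, b, e⟩ := h
  obtain ⟨q, hC, hX⟩ := exists_polD p (-C b) (algebraMap ℂ _ 2⁻¹ * C a * X)
  haveI := sm_pol (A := A)
  refine sm_quot (X ^ 2 - C f : A[X]) q ⟨-C a, 1, ?_⟩
  have h1 := congrArg (C : A → A[X]) e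
  simp only [map_add, map_mul, map_one] at h1
  simp only [map_sub, sq, Derivation.leibniz, hX, hC, smul_eq_mul]
  linear_combination h1 + (C a * X * X) * half_two (A := A[X])

/-! ### Localisations -/

theorem along_zero {κ : A →ₐ[ℂ] L} {s : A} (h : IsAway κ s) (φ : L →ₐ[ℂ] B) {M : Type}
    [AddCommGroup M] [Module B M] (u : L → M) (hu : ∀ x y, u (x * y) = φ x • u y + φ y • u x)
    (h0 : ∀ a, u (κ a) = 0) (z : L) : u z = 0 := by
  obtain ⟨n, a, e⟩ := h.surj z
  have h1 := hu (κ (s ^ n)) z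
  rw [h0 (s ^ n), smul_zero, add_zero, map_pow κ, e, h0] at h1
  exact ((h.unit.pow n).map φ).smul_eq_zero.1 h1.symm

theorem away_flat {κ : A →ₐ[ℂ] L} {s : A} (h : IsAway κ s) : (κ : A →+* L).Flat := by
  letI := (κ : A →+* L).toAlgebra
  haveI : IsLocalization.Away s L := IsLocalization.Away.mk s h.unit
    (fun y => (h.surj y).imp fun n hn => hn.imp fun x e => (mul_comm _ _).trans e)
    fun a b e => by
      obtain ⟨n, hn⟩ := h.ker (a - b) (by rw [map_sub, sub_eq_zero]; exact e)
      exact ⟨n, by rwa [mul_sub, sub_eq_zero] at hn⟩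
  exact IsLocalization.flat L (Submonoid.powers s)

theorem away_id : IsAway (AlgHom.id ℂ A) 1 :=
  ⟨isUnit_one, fun y => ⟨0, y, by simp⟩, fun x h => ⟨0, by simpa using h⟩⟩

theorem away_map (f : A) {φ : A →ₐ[ℂ] B} {s : A} (h : IsAway φ s) (ε : ℤˣ) :
    IsAway (Dc.map f φ ε) (Dc.of f s) := by
  have h1 : φ f = ((ε : ℤ) : B) ^ 2 * φ f := by rw [sgn_sq, one_mul]
  have h2 : Dc.map f φ ε = dcM φ _ h1 := Dc.ext (fun a => by rw [Dc.map_of, dcM_of])
    (by rw [Dc.map_t, dcM_t, map_intCast])
  rw [h2]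
  exact dcM_away φ _ h1 (Star.sgn_unit ε) h

theorem of_flat (f : A) : (Dc.of f : A →+* Dc f).Flat := by
  haveI := (monic_X_pow_sub_C f two_ne_zero).free_adjoinRoot
  exact RingHom.flat_algebraMap_iff.2 inferInstance

/-! ### Coordinates -/

/-- The function `x` is a coordinate and `p` is the derivative with respect to it. -/
structure IsCo (p : Derivation ℂ A A) (x : A) : Prop where
  one : p x = 1
  chain : ∀ (B : Type) [CommRing B] [Algebra ℂ B] (φ : A →ₐ[ℂ] B) (M : Type) [AddCommGroup M]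
    [Module B M] [Module ℂ M] [IsScalarTower ℂ B M] (u : Derivation ℂ B M) (a : A),
    u (φ a) = φ (p a) • u (φ x)

theorem isCo_pol : IsCo (derivative' : Derivation ℂ ℂ[X] ℂ[X]) X where
  one := derivative_X
  chain B _ _ φ M _ _ _ _ u a := by
    have h : ∀ z, φ z = aeval (φ X) z := fun z => by
      rw [aeval_algHom_apply, aeval_X_left_apply]
    rw [h a, h (derivative' a), Derivation.map_aeval]
    rfl

theorem IsCo.loc {p : Derivation ℂ A A} {x : A} (h : IsCo p x) {κ : A →ₐ[ℂ] L} {s : A}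
    (hκ : IsAway κ s) {q : Derivation ℂ L L} (hq : ∀ a, q (κ a) = κ (p a)) : IsCo q (κ x) where
  one := by rw [hq, h.one, map_one]
  chain B _ _ φ M _ _ _ _ u a := by
    refine sub_eq_zero.1 (along_zero hκ φ
      (fun z => u (φ z) - φ (q z) • u (φ (κ x))) (fun y z => ?_) (fun a => ?_) a)
    · simp only [map_mul, map_add, Derivation.leibniz, smul_eq_mul, add_smul, mul_smul, smul_sub]
      abel
    · rw [sub_eq_zero, hq]
      exact h.chain B (φ.comp κ) M u a

/-- A generator of the differentials dual to the vector field `p`. -/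
def Fr (p : Derivation ℂ A A) : Type :=
  {w : Ω[A⁄ℂ] // (∀ a, KaehlerDifferential.D ℂ A a = p a • w) ∧ p.liftKaehlerDifferential w = 1}

/-- The differential of a coordinate. -/
def IsCo.fr {p : Derivation ℂ A A} {x : A} (h : IsCo p x) : Fr p :=
  ⟨KaehlerDifferential.D ℂ A x, h.chain A (AlgHom.id ℂ A) _ (KaehlerDifferential.D ℂ A),
    (p.liftKaehlerDifferential_comp_D x).trans h.one⟩

theorem IsCo.exists_dc {p : Derivation ℂ A A} {x : A} (h : IsCo p x) {f : A}
    (hf : IsCoprime f (p f)) : Nonempty (Fr (dcD f p)) := by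
  obtain ⟨a, b, e⟩ := hf
  have hc := h.chain _ (Dc.of f) _ (KaehlerDifferential.D ℂ (Dc f))
  have h1 := congrArg (Dc.of f) e
  have h2 := Dc.t_sq f
  have h3 := (congrArg (KaehlerDifferential.D ℂ (Dc f)) ((sq _).symm.trans h2)).trans (hc f)
  have h4 := half_two (A := Dc f)
  simp only [map_add, map_mul, map_one] at h1
  rw [Derivation.leibniz] at h3
  have h5 : Dc.of f a * Dc.t f * Dc.t f + Dc.of f b * Dc.of f (p f) = 1 := by
    linear_combination h1 + Dc.of f a * h2
  refine ⟨(Dc.of f a * Dc.t f) • KaehlerDifferential.D ℂ _ (Dc.of f x) +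
    (2 * Dc.of f b) • KaehlerDifferential.D ℂ _ (Dc.t f), fun z => ?_, ?_⟩
  · induction z using dc_ind with
    | h α β =>
      simp only [map_add, Derivation.leibniz, hc α, hc β, dcD_of, dcD_t, Algebra.smul_def,
        smul_eq_mul]
      generalize KaehlerDifferential.D ℂ _ (Dc.of f x) = X at h3 ⊢
      generalize KaehlerDifferential.D ℂ _ (Dc.t f) = T at h3 ⊢
      generalize algebraMap ℂ (Dc f) 2⁻¹ = k at h4 ⊢
      generalize Dc.of f a = a at h5 ⊢
      generalize Dc.of f b = b at h5 ⊢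
      generalize Dc.of f (p f) = g at h3 h5 ⊢
      generalize Dc.t f = t at h3 h5 ⊢
      have e1 : t • ((a * t) • X + (2 * b) • T) = X := by
        linear_combination (norm := module) b • h3 + h5 • X
      have h6 : k * 2 * (a * t * t + b * g) = 1 := by rw [h4, h5, one_mul]
      have e2 : (k * g) • ((a * t) • X + (2 * b) • T) = T := by
        linear_combination (norm := module) (-(k * a * t)) • h3 + h6 • T
      generalize (a * t) • X + (2 * b) • T = w at e1 e2 ⊢
      rw [← e1, ← e2]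
      module
  · simp only [map_add, map_smul, Derivation.liftKaehlerDifferential_comp_D, dcD_of, dcD_t, h.one,
      map_one, smul_eq_mul]
    rw [Algebra.smul_def]
    linear_combination h1 + Dc.of f a * h2 + (Dc.of f b * Dc.of f (p f)) * h4

end

end Vale.Agent.P286EL
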